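/-
Row 210 (S0432), layer CU (curves toolbox), architect helper118.
Definitions of the layer.  Master plan: origin/helper928:docs/R210_master.md, section CU.
-/
import Claimed.Agent.R210.Defs

set_option autoImplicit false

open Claims.C0366 Claims.C0366.WeakHessian
open Set Filter MeasureTheory
open scoped ENNReal NNReal Topology

namespace Claimed.Agent.R210.CU.Defs

noncomputable section

variable {X : Type*} [MetricSpace X]

theorem cu_continuous_clampTime : Continuous clampTime :=
  Continuous.subtype_mk (continuous_const.max (continuous_const.min continuous_id)) _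

/-- the kinetic energy `∫_0^1 |γ'|²`. -/
def cu_energy (γ : Curve X) : ℝ≥0∞ := ∫⁻ t in Icc (0 : ℝ) 1, (metricSpeed γ t) ^ 2

/-- one term `d(γ_a, γ_b)² / (b - a)` of a Riesz sum (`0` if `a = b`). -/
def cu_term (γ : Curve X) (a b : ℝ) : ℝ≥0∞ :=
  edist (evalReal γ a) (evalReal γ b) ^ 2 / ENNReal.ofReal (b - a)

/-- the Riesz energy: supremum over all finite monotone sequences of REAL times
(`evalReal` clamps, so times outside `[0,1]` do no harm). -/
def cu_energy' (γ : Curve X) : ℝ≥0∞ :=
  ⨆ p : ℕ × {u : ℕ → ℝ // Monotone u}, ∑ i ∈ Finset.range p.1, cu_term γ (p.2.1 i) (p.2.1 (i + 1))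

/-- dyadic energy of level `n`. -/
def cu_dyen (n : ℕ) (γ : Curve X) : ℝ≥0∞ :=
  ∑ i ∈ Finset.range (2 ^ n),
    (2 : ℝ≥0∞) ^ n * edist (evalReal γ ((i : ℝ) / 2 ^ n)) (evalReal γ (((i + 1 : ℕ) : ℝ) / 2 ^ n)) ^ 2

/-- the affine reparametrisation `r ↦ s + r (t - s)` of `Time` (clamped). -/
def cu_aff (s t : ℝ) : C(Time, Time) :=
  ⟨fun r => clampTime (s + (r : ℝ) * (t - s)),
    cu_continuous_clampTime.comp (continuous_const.add (continuous_subtype_val.mul continuous_const))⟩

/-- restriction-and-rescaling: `(cu_restr s t γ) r = γ (s + r (t - s))`. -/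
def cu_restr (s t : ℝ) (γ : Curve X) : Curve X := γ.comp (cu_aff s t)

/-- time reversal. -/
def cu_rev (γ : Curve X) : Curve X := cu_restr 1 0 γ

/-- compression bound `(e_t)_# π ≤ C m` for all `t` (second clause of the frozen `IsTestPlan`). -/
def cu_Compr [MeasurableSpace X] [BorelSpace X] (m : Measure X) (π : Measure (Curve X)) (C : ℝ≥0) : Prop :=
  ∀ t : Time, Measure.map (fun γ : Curve X => γ t) π ≤ (C : ℝ≥0∞) • m

/-- hygiene. -/
theorem cu_defs_hygiene : True := by
  have := @cu_Compr.eq_1.{0}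
  have := @cu_dyen.eq_1.{0}
  have := @cu_energy.eq_1.{0}
  have := @cu_term.eq_1.{0}
  have := @cu_energy'.eq_1.{0}
  have := @cu_aff.eq_1
  have := @cu_restr.eq_1.{0}
  have := @cu_rev.eq_1.{0}
  trivial

end

end Claimed.Agent.R210.CU.Defs
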