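/-
Row 210 (S0432), layer CU, file IfcBasic (CU1, exported, sorry-free): `Curve X` is Polish, evaluation maps.
-/
import Claimed.Agent.R210.CU.Defs

set_option autoImplicit false

open Claims.C0366 Claims.C0366.WeakHessian
open Set Filter MeasureTheory TopologicalSpace
open scoped ENNReal NNReal Topology
open Claimed.Agent.R210.CU.Defs

namespace Claimed.Agent.R210.CU.IfcBasic

noncomputable section

variable {X : Type*} [MetricSpace X]

theorem cu_secondCountable [SeparableSpace X] : SecondCountableTopology (Curve X) := by
  have : SecondCountableTopology X := UniformSpace.secondCountable_of_separable X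
  infer_instance

theorem cu_completeSpace [CompleteSpace X] : CompleteSpace (Curve X) := inferInstance

theorem cu_polishSpace [CompleteSpace X] [SeparableSpace X] : PolishSpace (Curve X) := by
  have : SecondCountableTopology (Curve X) := cu_secondCountable
  infer_instance

theorem cu_clampTime_of_mem {t : ℝ} (ht : t ∈ Icc (0 : ℝ) 1) : clampTime t = ⟨t, ht⟩ := by
  apply Subtype.ext
  simp [clampTime, ht.1, ht.2]

theorem cu_clampTime_coe (t : Time) : clampTime (t : ℝ) = t := by
  rw [cu_clampTime_of_mem t.2]

theorem cu_clampTime_of_nonpos {t : ℝ} (ht : t ≤ 0) : clampTime t = timeZero := by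
  apply Subtype.ext
  have : min 1 t = t := min_eq_right (ht.trans zero_le_one)
  simp [clampTime, timeZero, this, ht]

theorem cu_clampTime_of_one_le {t : ℝ} (ht : 1 ≤ t) : clampTime t = timeOne := by
  apply Subtype.ext
  simp [clampTime, timeOne, ht]

theorem cu_clampTime_mono : Monotone clampTime := by
  intro a b hab
  apply Subtype.mk_le_mk.2
  exact max_le_max le_rfl (min_le_min le_rfl hab)

theorem cu_evalReal_coe (γ : Curve X) (t : Time) : evalReal γ (t : ℝ) = γ t := by
  rw [evalReal, cu_clampTime_coe]

theorem cu_evalReal_of_mem (γ : Curve X) {t : ℝ} (ht : t ∈ Icc (0 : ℝ) 1) :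
    evalReal γ t = γ ⟨t, ht⟩ := by
  rw [evalReal, cu_clampTime_of_mem ht]

theorem cu_evalReal_of_nonpos (γ : Curve X) {t : ℝ} (ht : t ≤ 0) : evalReal γ t = γ timeZero := by
  rw [evalReal, cu_clampTime_of_nonpos ht]

theorem cu_evalReal_of_one_le (γ : Curve X) {t : ℝ} (ht : 1 ≤ t) : evalReal γ t = γ timeOne := by
  rw [evalReal, cu_clampTime_of_one_le ht]

theorem cu_evalReal_zero (γ : Curve X) : evalReal γ 0 = γ timeZero := cu_evalReal_of_nonpos γ le_rfl

theorem cu_evalReal_one (γ : Curve X) : evalReal γ 1 = γ timeOne := cu_evalReal_of_one_le γ le_rfl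

theorem cu_continuous_eval : Continuous (fun p : Curve X × Time => p.1 p.2) :=
  ContinuousEval.continuous_eval

theorem cu_continuous_evalReal : Continuous (fun p : Curve X × ℝ => evalReal p.1 p.2) :=
  cu_continuous_eval.comp (continuous_fst.prodMk (cu_continuous_clampTime.comp continuous_snd))

theorem cu_continuous_evalReal_curve (γ : Curve X) : Continuous (evalReal γ) :=
  γ.continuous.comp cu_continuous_clampTime

theorem cu_continuous_evalReal_time (t : ℝ) : Continuous (fun γ : Curve X => evalReal γ t) :=
  cu_continuous_evalReal.comp (continuous_id.prodMk continuous_const)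

theorem cu_continuous_eval_time (t : Time) : Continuous (fun γ : Curve X => γ t) :=
  cu_continuous_eval.comp (continuous_id.prodMk continuous_const)

theorem cu_dist_eval_le (γ γ' : Curve X) (t : Time) : dist (γ t) (γ' t) ≤ dist γ γ' :=
  ContinuousMap.dist_apply_le_dist t

theorem cu_dist_evalReal_le (γ γ' : Curve X) (t : ℝ) :
    dist (evalReal γ t) (evalReal γ' t) ≤ dist γ γ' :=
  ContinuousMap.dist_apply_le_dist _

theorem cu_borelSpace_prod [SeparableSpace X] : BorelSpace (Curve X × ℝ) := by
  have : SecondCountableTopology (Curve X) := cu_secondCountable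
  infer_instance

variable [MeasurableSpace X] [BorelSpace X]

theorem cu_measurable_eval (t : Time) : Measurable (fun γ : Curve X => γ t) :=
  (cu_continuous_eval_time t).measurable

theorem cu_measurable_evalReal_time (t : ℝ) : Measurable (fun γ : Curve X => evalReal γ t) :=
  (cu_continuous_evalReal_time t).measurable

theorem cu_measurable_evalReal [SeparableSpace X] :
    Measurable (fun p : Curve X × ℝ => evalReal p.1 p.2) := by
  have : BorelSpace (Curve X × ℝ) := cu_borelSpace_prod
  exact cu_continuous_evalReal.measurable

theorem cu_measurable_endpoints : Measurable (fun γ : Curve X => (γ timeZero, γ timeOne)) :=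
  (cu_measurable_eval timeZero).prodMk (cu_measurable_eval timeOne)

end

end Claimed.Agent.R210.CU.IfcBasic
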