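/-
Row 210 (S0432), layer CU, file SpeedMeas (CU2): Borel measurability of the metric speed.
Plan.  `metricSpeed γ t = limsup_{s → t, s ≠ t} ofReal (d(γ_s, γ_t)/|s-t|)`.
* `cu_metricSpeed_eq`: basis of `𝓝[≠] t`: `{s | 0 < |s-t| < 1/(n+1)}` (`Filter.HasBasis.limsup_eq_iInf_iSup`,
  `nhdsWithin_hasBasis`, `Metric.nhds_basis_ball_inv_nat_succ`), substitute `s = t + r`; the supremum over real `r` with `0 < |r| < 1/(n+1)`
  equals the supremum over rational `r`, because `r ↦ ofReal (d(γ_{t+r}, γ_t)/|r|)` is continuous on `r ≠ 0`, the set is open, rationals are dense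
  (if `c <` value at `r₀`, then `c <` value at a rational nearby: `Continuous(At).eventually (lt_mem_nhds)` + `Rat.denseRange_cast`/`exists_rat_btwn`).
* measurability: countable `iInf`/`iSup` (`Measurable.iInf`, `Measurable.iSup`, `Measurable.iSup_Prop`) of functions continuous in `(γ,t)`
  (`cu_continuous_evalReal`, `cu_borelSpace_prod`).
-/
import Claimed.Agent.R210.CU.IfcBasic

set_option autoImplicit false

open Claims.C0366 Claims.C0366.WeakHessian
open Set Filter MeasureTheory TopologicalSpace
open scoped ENNReal NNReal Topology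
open Claimed.Agent.R210.Defs Claimed.Agent.R210.CU.Defs Claimed.Agent.R210.CU.IfcBasic

namespace Claimed.Agent.R210.CU.SpeedMeas

noncomputable section

variable {X : Type*} [MetricSpace X]

theorem cu_hasBasis_punctured (t : ℝ) :
    (𝓝[≠] t).HasBasis (fun _ : ℕ => True)
      (fun n : ℕ => {s : ℝ | s ≠ t ∧ |s - t| < 1 / ((n : ℝ) + 1)}) := by
  have h := nhdsWithin_hasBasis (Metric.nhds_basis_ball_inv_nat_succ (x := t)) ({t}ᶜ)
  refine h.congr (fun _ => Iff.rfl) ?_
  intro n _
  ext s
  simp only [mem_inter_iff, Metric.mem_ball, mem_compl_iff, mem_singleton_iff, mem_ofPred_eq,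
    Real.dist_eq]
  tauto

/-- the limsup may be taken along rational increments. -/
theorem cu_metricSpeed_eq (γ : Curve X) (t : ℝ) :
    metricSpeed γ t = ⨅ n : ℕ, ⨆ q : ℚ, ⨆ (_ : q ≠ 0 ∧ |(q : ℝ)| < 1 / ((n : ℝ) + 1)),
      ENNReal.ofReal (dist (evalReal γ (t + q)) (evalReal γ t) / |(q : ℝ)|) := by
  unfold metricSpeed
  rw [(cu_hasBasis_punctured t).limsup_eq_iInf_iSup]
  simp only [iInf_true]
  refine iInf_congr fun n => ?_
  apply le_antisymm
  · refine iSup₂_le fun s hs => ?_
    obtain ⟨hst, hs⟩ := hs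
    -- by contradiction / le_of_forall_lt
    refine le_of_forall_lt fun c hc => ?_
    -- continuity of the quotient at s
    have hcont : ContinuousAt (fun s : ℝ =>
        ENNReal.ofReal (dist (evalReal γ s) (evalReal γ t) / |s - t|)) s := by
      refine ENNReal.continuous_ofReal.continuousAt.comp ?_
      refine ContinuousAt.div ?_ ?_ ?_
      · exact ((cu_continuous_evalReal_curve γ).dist continuous_const).continuousAt
      · exact (continuous_abs.comp (continuous_id.sub continuous_const)).continuousAt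
      · exact abs_ne_zero.mpr (sub_ne_zero.mpr hst)
    have h1 : ∀ᶠ s' in 𝓝 s, c < ENNReal.ofReal (dist (evalReal γ s') (evalReal γ t) / |s' - t|) :=
      hcont.eventually (lt_mem_nhds hc)
    have h2 : ∀ᶠ s' in 𝓝 s, s' ≠ t := isOpen_ne.mem_nhds hst
    have h3 : ∀ᶠ s' in 𝓝 s, |s' - t| < 1 / ((n : ℝ) + 1) :=
      (continuous_abs.comp (continuous_id.sub continuous_const)).continuousAt.eventually
        (gt_mem_nhds hs)
    have h4 : ∀ᶠ r in 𝓝 (s - t), c < ENNReal.ofReal (dist (evalReal γ (t + r)) (evalReal γ t) / |r|)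
        ∧ r ≠ 0 ∧ |r| < 1 / ((n : ℝ) + 1) := by
      have hT : Tendsto (fun r : ℝ => t + r) (𝓝 (s - t)) (𝓝 s) := by
        have : Tendsto (fun r : ℝ => t + r) (𝓝 (s - t)) (𝓝 (t + (s - t))) :=
          (continuous_const.add continuous_id).tendsto _
        simpa using this
      filter_upwards [hT.eventually (h1.and (h2.and h3))] with r hr
      obtain ⟨a, b, c'⟩ := hr
      refine ⟨by simpa using a, ?_, by simpa using c'⟩
      intro h0; apply b; simp [h0]
    obtain ⟨q, hq⟩ := (Rat.denseRange_cast (𝕜 := ℝ)).exists_mem_open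
      (isOpen_interior) (⟨s - t, mem_interior_iff_mem_nhds.mpr h4⟩ : (interior _).Nonempty)
    have hq' := interior_subset hq
    obtain ⟨a, b, c'⟩ := hq'
    refine lt_of_lt_of_le a ?_
    refine le_iSup₂_of_le q ⟨by exact_mod_cast b, c'⟩ le_rfl
  · refine iSup₂_le fun q hq => ?_
    refine le_iSup₂_of_le (t + q) ⟨?_, ?_⟩ ?_
    · intro h
      apply hq.1
      have : (q : ℝ) = 0 := by linarith
      exact_mod_cast this
    · simpa using hq.2
    · simp

theorem cu_measurable_metricSpeed [SeparableSpace X] :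
    Measurable (fun p : Curve X × ℝ => metricSpeed p.1 p.2) := by
  have hB : BorelSpace (Curve X × ℝ) := cu_borelSpace_prod
  simp only [cu_metricSpeed_eq]
  refine Measurable.iInf fun n => Measurable.iSup fun q => Measurable.iSup_Prop _ ?_
  apply Continuous.measurable
  refine ENNReal.continuous_ofReal.comp ?_
  refine Continuous.div_const ?_ _
  refine Continuous.dist ?_ cu_continuous_evalReal
  exact cu_continuous_evalReal.comp (continuous_fst.prodMk (continuous_snd.add continuous_const))

theorem cu_measurable_metricSpeed_curve (γ : Curve X) : Measurable (metricSpeed γ) := by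
  have h : metricSpeed γ = fun t => ⨅ n : ℕ, ⨆ q : ℚ, ⨆ (_ : q ≠ 0 ∧ |(q : ℝ)| < 1 / ((n : ℝ) + 1)),
      ENNReal.ofReal (dist (evalReal γ (t + q)) (evalReal γ t) / |(q : ℝ)|) := by
    funext t; exact cu_metricSpeed_eq γ t
  rw [h]
  refine Measurable.iInf fun n => Measurable.iSup fun q => Measurable.iSup_Prop _ ?_
  apply Continuous.measurable
  refine ENNReal.continuous_ofReal.comp ?_
  refine Continuous.div_const ?_ _
  refine Continuous.dist ?_ (cu_continuous_evalReal_curve γ)
  exact (cu_continuous_evalReal_curve γ).comp (continuous_id.add continuous_const)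

/-- `Measurable.lintegral_prod_right'` applied to `cu_measurable_metricSpeed`. -/
theorem cu_measurable_energy [SeparableSpace X] : Measurable (cu_energy : Curve X → ℝ≥0∞) := by
  have h : Measurable (fun p : Curve X × ℝ => (metricSpeed p.1 p.2) ^ 2) :=
    cu_measurable_metricSpeed.pow_const 2
  exact h.lintegral_prod_right'

end

end Claimed.Agent.R210.CU.SpeedMeas
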