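/-
Row 210 (S0432), layer CU, file Along (CU7): measurability and integral bounds along plans with bounded compression.
Notation: `L := volume.restrict (Icc 0 1)`, `ev (γ,t) := evalReal γ t` (measurable: `cu_measurable_evalReal`, X separable).
* `cu_map_prod_evalReal_le`: for measurable A:  `(π ⊗ L)(ev⁻¹ A) = ∫⁻ t ∂L, π {γ | evalReal γ t ∈ A}` (`Measure.prod_apply_symm`) `= ∫⁻ t ∂L, (π.map (· (clampTime t))) A ≤ C m A · L univ = C m A`;  `Measure.le_iff`.
* `cu_aemeasurable_along`: `hD.mono_ac` (`Measure.absolutelyContinuous_of_le_smul`) then `AEMeasurable.comp_measurable`.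
* `cu_ae_along`: `ae_of_ae_map`;   `cu_ae_ae_along`: `Measure.ae_ae_of_ae_prod`.      `cu_ae_eval`: the same with `hC t`.
* `cu_lintegral_along_le`: Tonelli (`lintegral_prod` for AEMeasurable), `lintegral_map'`, `lintegral_mono'`, `lintegral_smul_measure`.
* tracks versions: replace g by `S.indicator g` (`aemeasurable_indicator_iff`, `lintegral_indicator`); along π-a.e. curve nothing changes.
* `cu_cauchy_schwarz_along`: `ENNReal.lintegral_mul_le_Lp_mul_Lq` on `π ⊗ L` with `p = q = 2` (`Real.HolderConjugate` 2 2), `cu_measurable_metricSpeed`, Tonelli on both factors, `cu_lintegral_along_le` for `g²`.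
* `cu_aemeasurable_of_locallyL2`: if X is empty trivial; otherwise `univ = ⋃ n, ball o (n+1)`, `aemeasurable_iUnion_iff`, `Measure.restrict_univ`.
-/
import Claimed.Agent.R210.CU.SpeedMeas

set_option autoImplicit false

open Claims.C0366 Claims.C0366.WeakHessian
open Set Filter MeasureTheory TopologicalSpace
open scoped ENNReal NNReal Topology
open Claimed.Agent.R210.Defs Claimed.Agent.R210.CU.Defs Claimed.Agent.R210.CU.IfcBasic

open Claimed.Agent.R210.CU.SpeedMeas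

namespace Claimed.Agent.R210.CU.Along

noncomputable section

variable {X : Type*} [MetricSpace X] [MeasurableSpace X] [BorelSpace X] {m : Measure X}

theorem cu_map_prod_evalReal_le [SeparableSpace X] {π : Measure (Curve X)} [SFinite π] {C : ℝ≥0}
    (hC : cu_Compr m π C) :
    (π.prod (volume.restrict (Icc (0 : ℝ) 1))).map (fun p : Curve X × ℝ => evalReal p.1 p.2)
      ≤ (C : ℝ≥0∞) • m := by
  rw [Measure.le_iff]
  intro A hA
  have hev : Measurable (fun p : Curve X × ℝ => evalReal p.1 p.2) := cu_measurable_evalReal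
  rw [Measure.map_apply hev hA, Measure.prod_apply_symm (hev hA)]
  have h1 : ∀ t : ℝ, π ((fun γ : Curve X => (γ, t)) ⁻¹' ((fun p : Curve X × ℝ => evalReal p.1 p.2) ⁻¹' A))
      ≤ (C : ℝ≥0∞) * m A := by
    intro t
    have h2 := hC (clampTime t) A
    rw [Measure.map_apply (cu_measurable_eval _) hA] at h2
    exact h2
  calc ∫⁻ t in Icc (0 : ℝ) 1, π ((fun γ : Curve X => (γ, t)) ⁻¹' ((fun p : Curve X × ℝ => evalReal p.1 p.2) ⁻¹' A))
      ≤ ∫⁻ _ in Icc (0 : ℝ) 1, (C : ℝ≥0∞) * m A := lintegral_mono h1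
    _ = (C : ℝ≥0∞) * m A := by
        rw [lintegral_const, Measure.restrict_apply MeasurableSet.univ, univ_inter, Real.volume_Icc]
        simp
    _ = ((C : ℝ≥0∞) • m) A := by simp

theorem cu_aemeasurable_along [SeparableSpace X] {π : Measure (Curve X)} [SFinite π] {C : ℝ≥0}
    (hC : cu_Compr m π C) {β : Type*} [MeasurableSpace β] {D : X → β} (hD : AEMeasurable D m) :
    AEMeasurable (fun p : Curve X × ℝ => D (evalReal p.1 p.2))
      (π.prod (volume.restrict (Icc (0 : ℝ) 1))) := by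
  have hac : (π.prod (volume.restrict (Icc (0 : ℝ) 1))).map (fun p : Curve X × ℝ => evalReal p.1 p.2) ≪ m :=
    Measure.absolutelyContinuous_of_le_smul (cu_map_prod_evalReal_le hC)
  exact (hD.mono_ac hac).comp_measurable cu_measurable_evalReal

theorem cu_ae_along [SeparableSpace X] {π : Measure (Curve X)} [SFinite π] {C : ℝ≥0}
    (hC : cu_Compr m π C) {P : X → Prop} (hP : ∀ᵐ x ∂m, P x) :
    ∀ᵐ p ∂(π.prod (volume.restrict (Icc (0 : ℝ) 1))), P (evalReal p.1 p.2) := by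
  have hac : (π.prod (volume.restrict (Icc (0 : ℝ) 1))).map (fun p : Curve X × ℝ => evalReal p.1 p.2) ≪ m :=
    Measure.absolutelyContinuous_of_le_smul (cu_map_prod_evalReal_le hC)
  exact ae_of_ae_map cu_measurable_evalReal.aemeasurable (hac.ae_le hP)

theorem cu_ae_ae_along [SeparableSpace X] {π : Measure (Curve X)} [SFinite π] {C : ℝ≥0}
    (hC : cu_Compr m π C) {P : X → Prop} (hP : ∀ᵐ x ∂m, P x) :
    ∀ᵐ γ ∂π, ∀ᵐ t ∂(volume.restrict (Icc (0 : ℝ) 1)), P (evalReal γ t) :=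
  Measure.ae_ae_of_ae_prod (cu_ae_along hC hP)

theorem cu_ae_eval {π : Measure (Curve X)} {C : ℝ≥0} (hC : cu_Compr m π C) {P : X → Prop}
    (hP : ∀ᵐ x ∂m, P x) (t : Time) : ∀ᵐ γ ∂π, P (γ t) := by
  have hac : Measure.map (fun γ : Curve X => γ t) π ≪ m :=
    Measure.absolutelyContinuous_of_le_smul (hC t)
  exact ae_of_ae_map (cu_measurable_eval t).aemeasurable (hac.ae_le hP)

theorem cu_lintegral_eval_le {π : Measure (Curve X)} {C : ℝ≥0} (hC : cu_Compr m π C) {g : X → ℝ≥0∞}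
    (hg : AEMeasurable g m) (t : Time) : (∫⁻ γ, g (γ t) ∂π) ≤ C * ∫⁻ x, g x ∂m := by
  have hac : Measure.map (fun γ : Curve X => γ t) π ≪ m :=
    Measure.absolutelyContinuous_of_le_smul (hC t)
  rw [← lintegral_map' (hg.mono_ac hac) (cu_measurable_eval t).aemeasurable]
  calc ∫⁻ x, g x ∂(Measure.map (fun γ : Curve X => γ t) π) ≤ ∫⁻ x, g x ∂((C : ℝ≥0∞) • m) :=
        lintegral_mono' (hC t) le_rfl
    _ = C * ∫⁻ x, g x ∂m := by rw [lintegral_smul_measure, smul_eq_mul]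

theorem cu_lintegral_along_le [SeparableSpace X] {π : Measure (Curve X)} [SFinite π] {C : ℝ≥0}
    (hC : cu_Compr m π C) {g : X → ℝ≥0∞} (hg : AEMeasurable g m) :
    (∫⁻ γ, ∫⁻ t in Icc (0 : ℝ) 1, g (evalReal γ t) ∂volume ∂π) ≤ C * ∫⁻ x, g x ∂m := by
  have hle := cu_map_prod_evalReal_le hC
  have hac : (π.prod (volume.restrict (Icc (0 : ℝ) 1))).map (fun p : Curve X × ℝ => evalReal p.1 p.2) ≪ m :=
    Measure.absolutelyContinuous_of_le_smul hle
  rw [← lintegral_prod (fun p : Curve X × ℝ => g (evalReal p.1 p.2)) (cu_aemeasurable_along hC hg),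
    ← lintegral_map' (hg.mono_ac hac) cu_measurable_evalReal.aemeasurable]
  calc ∫⁻ x, g x ∂((π.prod (volume.restrict (Icc (0 : ℝ) 1))).map (fun p : Curve X × ℝ => evalReal p.1 p.2))
      ≤ ∫⁻ x, g x ∂((C : ℝ≥0∞) • m) := lintegral_mono' hle le_rfl
    _ = C * ∫⁻ x, g x ∂m := by rw [lintegral_smul_measure, smul_eq_mul]

theorem cu_lintegral_along_le_of_tracks [SeparableSpace X] {π : Measure (Curve X)} [SFinite π] {C : ℝ≥0}
    (hC : cu_Compr m π C) {S : Set X} (hS : MeasurableSet S) (hπS : ∀ᵐ γ ∂π, ∀ t : Time, γ t ∈ S)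
    {g : X → ℝ≥0∞} (hg : AEMeasurable g (m.restrict S)) :
    (∫⁻ γ, ∫⁻ t in Icc (0 : ℝ) 1, g (evalReal γ t) ∂volume ∂π) ≤ C * ∫⁻ x in S, g x ∂m := by
  have hg' : AEMeasurable (S.indicator g) m := (aemeasurable_indicator_iff hS).2 hg
  have h1 := cu_lintegral_along_le hC hg'
  rw [lintegral_indicator hS] at h1
  refine le_trans (le_of_eq ?_) h1
  refine lintegral_congr_ae ?_
  filter_upwards [hπS] with γ hγ
  refine lintegral_congr fun t => ?_
  exact (indicator_of_mem (hγ (clampTime t)) g).symm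

theorem cu_cauchy_schwarz_along [SeparableSpace X] {π : Measure (Curve X)} [SFinite π] {C : ℝ≥0}
    (hC : cu_Compr m π C) {g : X → ℝ≥0∞} (hg : AEMeasurable g m) :
    (∫⁻ γ, ∫⁻ t in Icc (0 : ℝ) 1, g (evalReal γ t) * metricSpeed γ t ∂volume ∂π)
      ≤ (C * ∫⁻ x, (g x) ^ 2 ∂m) ^ (1 / 2 : ℝ) * (∫⁻ γ, cu_energy γ ∂π) ^ (1 / 2 : ℝ) := by
  set μ : Measure (Curve X × ℝ) := π.prod (volume.restrict (Icc (0 : ℝ) 1)) with hμ
  have hF : AEMeasurable (fun p : Curve X × ℝ => g (evalReal p.1 p.2)) μ := cu_aemeasurable_along hC hg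
  have hS : Measurable (fun p : Curve X × ℝ => metricSpeed p.1 p.2) := cu_measurable_metricSpeed
  have h1 : (∫⁻ γ, ∫⁻ t in Icc (0 : ℝ) 1, g (evalReal γ t) * metricSpeed γ t ∂volume ∂π)
      = ∫⁻ p, ((fun p : Curve X × ℝ => g (evalReal p.1 p.2)) * fun p : Curve X × ℝ => metricSpeed p.1 p.2) p ∂μ :=
    (lintegral_prod _ (hF.mul hS.aemeasurable)).symm
  have h2 : (∫⁻ p, (g (evalReal p.1 p.2)) ^ (2 : ℝ) ∂μ) ≤ C * ∫⁻ x, (g x) ^ 2 ∂m := by
    have h3 : (∫⁻ p, (g (evalReal p.1 p.2)) ^ (2 : ℝ) ∂μ)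
        = ∫⁻ γ, ∫⁻ t in Icc (0 : ℝ) 1, (fun x => (g x) ^ 2) (evalReal γ t) ∂volume ∂π := by
      rw [hμ, lintegral_prod _ (hF.pow_const (2 : ℝ))]
      simp only [ENNReal.rpow_two]
    rw [h3]
    exact cu_lintegral_along_le hC (hg.pow_const 2)
  have h4 : (∫⁻ p, (metricSpeed p.1 p.2) ^ (2 : ℝ) ∂μ) = ∫⁻ γ, cu_energy γ ∂π := by
    rw [hμ, lintegral_prod _ (hS.pow_const (2 : ℝ)).aemeasurable]
    simp only [ENNReal.rpow_two, cu_energy]
  rw [h1]
  have hpq : (2 : ℝ).HolderConjugate 2 := Real.HolderConjugate.two_two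
  refine (ENNReal.lintegral_mul_le_Lp_mul_Lq μ hpq hF hS.aemeasurable).trans ?_
  rw [h4]
  gcongr

theorem cu_cauchy_schwarz_along_of_tracks [SeparableSpace X] {π : Measure (Curve X)} [SFinite π]
    {C : ℝ≥0} (hC : cu_Compr m π C) {S : Set X} (hS : MeasurableSet S)
    (hπS : ∀ᵐ γ ∂π, ∀ t : Time, γ t ∈ S) {g : X → ℝ≥0∞} (hg : AEMeasurable g (m.restrict S)) :
    (∫⁻ γ, ∫⁻ t in Icc (0 : ℝ) 1, g (evalReal γ t) * metricSpeed γ t ∂volume ∂π)
      ≤ (C * ∫⁻ x in S, (g x) ^ 2 ∂m) ^ (1 / 2 : ℝ) * (∫⁻ γ, cu_energy γ ∂π) ^ (1 / 2 : ℝ) := by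
  have hg' : AEMeasurable (S.indicator g) m := (aemeasurable_indicator_iff hS).2 hg
  have h1 := cu_cauchy_schwarz_along hC hg'
  have h2 : (∫⁻ γ, ∫⁻ t in Icc (0 : ℝ) 1, g (evalReal γ t) * metricSpeed γ t ∂volume ∂π)
      = ∫⁻ γ, ∫⁻ t in Icc (0 : ℝ) 1, S.indicator g (evalReal γ t) * metricSpeed γ t ∂volume ∂π := by
    refine lintegral_congr_ae ?_
    filter_upwards [hπS] with γ hγ
    refine lintegral_congr fun t => ?_
    have hmem : evalReal γ t ∈ S := hγ (clampTime t)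
    rw [indicator_of_mem hmem]
  have h3 : (∫⁻ x, (S.indicator g x) ^ 2 ∂m) = ∫⁻ x in S, (g x) ^ 2 ∂m := by
    rw [← lintegral_indicator hS]
    refine lintegral_congr fun x => ?_
    by_cases hx : x ∈ S
    · rw [indicator_of_mem hx, indicator_of_mem hx]
    · rw [indicator_of_notMem hx, indicator_of_notMem hx]
      simp
  rw [h2, ← h3]
  exact h1

theorem cu_lintegral_along_congr [SeparableSpace X] {π : Measure (Curve X)} [SFinite π] {C : ℝ≥0}
    (hC : cu_Compr m π C) {g g' : X → ℝ≥0∞} (h : g =ᵐ[m] g') :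
    (∫⁻ γ, ∫⁻ t in Icc (0 : ℝ) 1, g (evalReal γ t) * metricSpeed γ t ∂volume ∂π)
      = ∫⁻ γ, ∫⁻ t in Icc (0 : ℝ) 1, g' (evalReal γ t) * metricSpeed γ t ∂volume ∂π := by
  refine lintegral_congr_ae ?_
  filter_upwards [cu_ae_ae_along hC h] with γ hγ
  refine lintegral_congr_ae ?_
  filter_upwards [hγ] with t ht
  rw [ht]

theorem cu_measurable_lintegral_along [SeparableSpace X] {g : X → ℝ≥0∞} (hg : Measurable g) :
    Measurable (fun γ : Curve X => ∫⁻ t in Icc (0 : ℝ) 1, g (evalReal γ t) * metricSpeed γ t) := by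
  have h : Measurable (fun p : Curve X × ℝ => g (evalReal p.1 p.2) * metricSpeed p.1 p.2) :=
    (hg.comp cu_measurable_evalReal).mul cu_measurable_metricSpeed
  exact h.lintegral_prod_right'

theorem cu_aemeasurable_of_locallyL2 {D : X → ℝ} (h : LocallyL2 m D) : AEMeasurable D m := by
  rcases isEmpty_or_nonempty X with hX | ⟨⟨o⟩⟩
  · exact (measurable_of_empty D).aemeasurable
  · have hU : (⋃ n : ℕ, Metric.ball o ((n : ℝ) + 1)) = univ := by
      refine eq_univ_of_forall fun x => ?_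
      obtain ⟨n, hn⟩ := exists_nat_gt (dist x o)
      exact mem_iUnion.2 ⟨n, by rw [Metric.mem_ball]; linarith⟩
    rw [← Measure.restrict_univ (μ := m), ← hU, aemeasurable_iUnion_iff]
    intro n
    exact (h o ((n : ℝ) + 1) (by positivity)).aestronglyMeasurable.aemeasurable

end

end Claimed.Agent.R210.CU.Along
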