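/-
Row 210 (S0432), layer CU, file Geo (CU5, first half): geodesics.
* `cu_isClosed_geodesic`: `{γ | IsGeodesic γ} = ⋂ s t, {γ | dist (γ s) (γ t) = |s - t| * dist (γ 0) (γ 1)}`, `isClosed_iInter`, `isClosed_eq`, `cu_continuous_eval_time`.
* `cu_speed_geodesic`: for `s` near `t ∈ (0,1)`, `s ≠ t`:  `d(γ_s,γ_t)/|s-t| = d(γ_0,γ_1)`;  limsup of an eventually constant function (`Filter.limsup_congr`, `limsup_const`; `𝓝[≠] t` is NeBot).
* `cu_isAC2_of_geodesic`: `a = const (edist (γ 0) (γ 1))`;  `∫⁻_{[s,t]} const = const * ofReal (t - s)` (`Real.volume_Icc`).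
* `cu_energy_geodesic`: `cu_speed_geodesic` on `Ioo 0 1` (a.e. all of `Icc 0 1`).
-/
import Claimed.Agent.R210.CU.IfcBasic

set_option autoImplicit false

open Claims.C0366 Claims.C0366.WeakHessian
open Set Filter MeasureTheory TopologicalSpace
open scoped ENNReal NNReal Topology
open Claimed.Agent.R210.Defs Claimed.Agent.R210.CU.Defs Claimed.Agent.R210.CU.IfcBasic

namespace Claimed.Agent.R210.CU.Geo

noncomputable section

variable {X : Type*} [MetricSpace X]

theorem cu_isClosed_geodesic : IsClosed {γ : Curve X | IsGeodesic γ} := by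
  have e : {γ : Curve X | IsGeodesic γ} = ⋂ s : Time, ⋂ t : Time,
      {γ : Curve X | dist (γ s) (γ t) = |(s : ℝ) - (t : ℝ)| * dist (γ timeZero) (γ timeOne)} := by
    ext γ
    simp only [mem_iInter]
    exact Iff.rfl
  rw [e]
  refine isClosed_iInter fun s => isClosed_iInter fun t => isClosed_eq ?_ ?_
  · exact (cu_continuous_eval_time s).dist (cu_continuous_eval_time t)
  · exact continuous_const.mul ((cu_continuous_eval_time timeZero).dist (cu_continuous_eval_time timeOne))

theorem cu_measurableSet_geodesic : MeasurableSet {γ : Curve X | IsGeodesic γ} :=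
  cu_isClosed_geodesic.measurableSet

theorem cu_geodesic_dist_evalReal {γ : Curve X} (h : IsGeodesic γ) {s t : ℝ} (hs : s ∈ Icc (0 : ℝ) 1)
    (ht : t ∈ Icc (0 : ℝ) 1) :
    dist (evalReal γ s) (evalReal γ t) = |s - t| * dist (γ timeZero) (γ timeOne) := by
  rw [cu_evalReal_of_mem γ hs, cu_evalReal_of_mem γ ht, h]

theorem cu_geodesic_dist_zero {γ : Curve X} (h : IsGeodesic γ) (t : Time) :
    dist (γ timeZero) (γ t) = (t : ℝ) * dist (γ timeZero) (γ timeOne) := by
  rw [h]; simp [timeZero, abs_of_nonneg t.2.1]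

theorem cu_geodesic_dist_one {γ : Curve X} (h : IsGeodesic γ) (t : Time) :
    dist (γ t) (γ timeOne) = (1 - (t : ℝ)) * dist (γ timeZero) (γ timeOne) := by
  rw [h]
  have : |(t : ℝ) - ((timeOne : Time) : ℝ)| = 1 - (t : ℝ) := by
    have h1 : ((timeOne : Time) : ℝ) = 1 := rfl
    rw [h1, abs_sub_comm, abs_of_nonneg (sub_nonneg.2 t.2.2)]
  rw [this]

theorem cu_speed_geodesic {γ : Curve X} (h : IsGeodesic γ) {t : ℝ} (ht : t ∈ Ioo (0 : ℝ) 1) :
    metricSpeed γ t = ENNReal.ofReal (dist (γ timeZero) (γ timeOne)) := by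
  unfold metricSpeed
  have hev : (fun s : ℝ => ENNReal.ofReal (dist (evalReal γ s) (evalReal γ t) / |s - t|))
      =ᶠ[𝓝[≠] t] fun _ => ENNReal.ofReal (dist (γ timeZero) (γ timeOne)) := by
    have h1 : ∀ᶠ s in 𝓝[≠] t, s ∈ Ioo (0 : ℝ) 1 := mem_nhdsWithin_of_mem_nhds (Ioo_mem_nhds ht.1 ht.2)
    filter_upwards [h1, self_mem_nhdsWithin] with s hs hne
    have hne' : |s - t| ≠ 0 := abs_ne_zero.2 (sub_ne_zero.2 hne)
    rw [cu_geodesic_dist_evalReal h (Ioo_subset_Icc_self hs) (Ioo_subset_Icc_self ht), mul_div_assoc,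
      mul_comm, div_mul_cancel₀ _ hne']
  rw [limsup_congr hev, limsup_const]

theorem cu_isAC2_of_geodesic {γ : Curve X} (h : IsGeodesic γ) : IsAC2 γ := by
  refine ⟨fun _ => edist (γ timeZero) (γ timeOne), measurable_const, ?_, fun s t hst => ?_⟩
  · rw [setLIntegral_const, Real.volume_Icc]
    exact ENNReal.mul_lt_top (ENNReal.pow_lt_top (edist_lt_top _ _)) ENNReal.ofReal_lt_top
  · rw [setLIntegral_const, Real.volume_Icc, edist_dist, edist_dist, h s t,
      abs_sub_comm, abs_of_nonneg (sub_nonneg.2 hst), mul_comm,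
      ENNReal.ofReal_mul dist_nonneg]

theorem cu_energy_geodesic {γ : Curve X} (h : IsGeodesic γ) :
    cu_energy γ = edist (γ timeZero) (γ timeOne) ^ 2 := by
  unfold cu_energy
  rw [← setLIntegral_congr (Ioo_ae_eq_Icc (a := (0 : ℝ)) (b := 1) (μ := volume)),
    setLIntegral_congr_fun (g := fun _ => edist (γ timeZero) (γ timeOne) ^ 2) measurableSet_Ioo
      (fun t ht => by rw [cu_speed_geodesic h ht, edist_dist]),
    setLIntegral_const, Real.volume_Ioo]
  simp

end

end Claimed.Agent.R210.CU.Geo
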