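/-
Row 210 (S0432), layer CU, file Riesz (part of CU3): elementary properties of the Riesz energy `cu_energy'`.
* `cu_sum_le_energy'`: `le_iSup` at `(n, ⟨u, hu⟩)`.     `cu_term_le_energy'`: `n = 1`, `u i = if i = 0 then a else b`.
* `cu_edist_sq_le`: from `cu_term_le_energy'`; cases `a = b` / `a < b` (`ENNReal.div_le_iff`...).
* `cu_term_le_lintegral`: `a₀ := clamp a`, `b₀ := clamp b`;  `edist ≤ ∫⁻_{[a₀,b₀]} α`;  Cauchy-Schwarz `(∫⁻_I α)² ≤ vol I · ∫⁻_I α²`
  (`ENNReal.lintegral_mul_le_Lp_mul_Lq` with `p = q = 2`, or `lintegral_rpow`-Jensen), `vol I = b₀ - a₀ ≤ b - a`, `Icc a₀ b₀` and `Ioc a b ∩ Icc 0 1` differ by a null set.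
* `cu_energy'_le_of_admissible`: sum of `cu_term_le_lintegral`;  the sets `Ioc (u i) (u (i+1))` are pairwise disjoint (u monotone)
  (`lintegral_biUnion_finset`/induction with `lintegral_union`, or `Monotone.pairwise_disjoint_on_Ioc_succ`).
* `cu_lsc_energy'`: `lowerSemicontinuous_iSup`, `lowerSemicontinuous_sum`;  each `γ ↦ cu_term γ a b` is continuous: if `b - a ≤ 0` and `a ≤ b` it is constant `0`;
  (for `b < a` it does not occur: u monotone);  if `a < b`: `ENNReal.continuous_div_const`, `continuous_edist`, `cu_continuous_evalReal_time`.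
-/
import Claimed.Agent.R210.CU.IfcBasic

set_option autoImplicit false

open Claims.C0366 Claims.C0366.WeakHessian
open Set Filter MeasureTheory TopologicalSpace
open scoped ENNReal NNReal Topology
open Claimed.Agent.R210.Defs Claimed.Agent.R210.CU.Defs Claimed.Agent.R210.CU.IfcBasic

namespace Claimed.Agent.R210.CU.Riesz

noncomputable section

variable {X : Type*} [MetricSpace X]

theorem cu_term_self (γ : Curve X) (a : ℝ) : cu_term γ a a = 0 := by
  simp [cu_term]

theorem cu_sum_le_energy' (γ : Curve X) (n : ℕ) {u : ℕ → ℝ} (hu : Monotone u) :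
    ∑ i ∈ Finset.range n, cu_term γ (u i) (u (i + 1)) ≤ cu_energy' γ :=
  le_iSup (fun p : ℕ × {u : ℕ → ℝ // Monotone u} =>
    ∑ i ∈ Finset.range p.1, cu_term γ (p.2.1 i) (p.2.1 (i + 1))) (n, ⟨u, hu⟩)

theorem cu_term_le_energy' (γ : Curve X) {a b : ℝ} (hab : a ≤ b) : cu_term γ a b ≤ cu_energy' γ := by
  have hu : Monotone (fun i : ℕ => if i = 0 then a else b) := by
    intro i j hij
    dsimp only
    split_ifs with h1 h2 h2
    · exact le_rfl
    · exact hab
    · omega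
    · exact le_rfl
  have h := cu_sum_le_energy' γ 1 hu
  simpa using h

theorem cu_edist_sq_le (γ : Curve X) {a b : ℝ} (hab : a ≤ b) :
    edist (evalReal γ a) (evalReal γ b) ^ 2 ≤ ENNReal.ofReal (b - a) * cu_energy' γ := by
  rcases hab.eq_or_lt with rfl | hlt
  · simp
  · have h := cu_term_le_energy' γ hab
    unfold cu_term at h
    have h0 : ENNReal.ofReal (b - a) ≠ 0 := by
      rw [Ne, ENNReal.ofReal_eq_zero, not_le]
      linarith
    rw [ENNReal.div_le_iff h0 ENNReal.ofReal_ne_top] at h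
    rwa [mul_comm]

/-- Cauchy-Schwarz: `(∫_S α)² ≤ vol S · ∫_S α²`. -/
theorem cu_sq_lintegral_le {α : ℝ → ℝ≥0∞} (hα : Measurable α) (S : Set ℝ) :
    (∫⁻ r in S, α r) ^ 2 ≤ volume S * ∫⁻ r in S, (α r) ^ 2 := by
  have h := ENNReal.lintegral_mul_le_Lp_mul_Lq (volume.restrict S) (Real.HolderConjugate.two_two)
    hα.aemeasurable (aemeasurable_const (b := (1 : ℝ≥0∞)))
  simp only [Pi.mul_apply, mul_one, lintegral_const, Measure.restrict_apply_univ,
    ENNReal.rpow_ofNat, one_pow, one_mul] at h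
  calc (∫⁻ r in S, α r) ^ 2
      ≤ ((∫⁻ r in S, (α r) ^ 2) ^ (1 / 2 : ℝ) * (volume S) ^ (1 / 2 : ℝ)) ^ 2 := pow_le_pow_left' h 2
    _ = volume S * ∫⁻ r in S, (α r) ^ 2 := by
        rw [mul_pow, ← ENNReal.rpow_natCast, ← ENNReal.rpow_mul, ← ENNReal.rpow_natCast (volume S ^ _),
          ← ENNReal.rpow_mul]
        norm_num
        rw [mul_comm]

theorem cu_term_le_lintegral {γ : Curve X} {α : ℝ → ℝ≥0∞} (hα : Measurable α)
    (hadm : ∀ s t : Time, (s : ℝ) ≤ (t : ℝ) → edist (γ s) (γ t) ≤ ∫⁻ r in Icc (s : ℝ) (t : ℝ), α r)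
    {a b : ℝ} (hab : a ≤ b) :
    cu_term γ a b ≤ ∫⁻ r in Ioc a b ∩ Icc (0 : ℝ) 1, (α r) ^ 2 := by
  have hle : ((clampTime a : Time) : ℝ) ≤ ((clampTime b : Time) : ℝ) := cu_clampTime_mono hab
  rcases eq_or_lt_of_le hle with heq | hlt
  · have : clampTime a = clampTime b := Subtype.ext heq
    simp [cu_term, evalReal, this]
  set a₀ : ℝ := ((clampTime a : Time) : ℝ) with ha₀
  set b₀ : ℝ := ((clampTime b : Time) : ℝ) with hb₀
  have ha1 : a < 1 := by
    by_contra hcon
    rw [not_lt] at hcon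
    have h1 : clampTime a = timeOne := cu_clampTime_of_one_le hcon
    have h2 : clampTime b = timeOne := cu_clampTime_of_one_le (hcon.trans hab)
    rw [ha₀, hb₀, h1, h2] at hlt
    exact lt_irrefl _ hlt
  have hb0 : 0 < b := by
    by_contra hcon
    rw [not_lt] at hcon
    have h1 : clampTime b = timeZero := cu_clampTime_of_nonpos hcon
    have h2 : clampTime a = timeZero := cu_clampTime_of_nonpos (hab.trans hcon)
    rw [ha₀, hb₀, h1, h2] at hlt
    exact lt_irrefl _ hlt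
  have haa : a ≤ a₀ := by
    show a ≤ max 0 (min 1 a)
    rw [min_eq_right ha1.le]; exact le_max_right _ _
  have hbb : b₀ ≤ b := by
    show max 0 (min 1 b) ≤ b
    exact max_le hb0.le (min_le_right _ _)
  have hpos : 0 < b - a := by linarith
  have hsub : Ioc a₀ b₀ ⊆ Ioc a b ∩ Icc (0 : ℝ) 1 := by
    intro r hr
    exact ⟨⟨lt_of_le_of_lt haa hr.1, hr.2.trans hbb⟩,
      ⟨(clampTime a).2.1.trans hr.1.le, hr.2.trans (clampTime b).2.2⟩⟩
  have hE : edist (evalReal γ a) (evalReal γ b) ≤ ∫⁻ r in Ioc a₀ b₀, α r := by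
    have := hadm (clampTime a) (clampTime b) hle
    rwa [← restrict_Ioc_eq_restrict_Icc] at this
  have hvol : volume (Ioc a₀ b₀) ≤ ENNReal.ofReal (b - a) := by
    rw [Real.volume_Ioc]
    exact ENNReal.ofReal_le_ofReal (by linarith)
  have hne : ENNReal.ofReal (b - a) ≠ 0 := by
    simpa using hpos
  calc cu_term γ a b = edist (evalReal γ a) (evalReal γ b) ^ 2 / ENNReal.ofReal (b - a) := rfl
    _ ≤ (ENNReal.ofReal (b - a) * ∫⁻ r in Ioc a₀ b₀, (α r) ^ 2) / ENNReal.ofReal (b - a) := by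
        apply ENNReal.div_le_div_right
        calc edist (evalReal γ a) (evalReal γ b) ^ 2 ≤ (∫⁻ r in Ioc a₀ b₀, α r) ^ 2 :=
              pow_le_pow_left' hE 2
          _ ≤ volume (Ioc a₀ b₀) * ∫⁻ r in Ioc a₀ b₀, (α r) ^ 2 := cu_sq_lintegral_le hα _
          _ ≤ _ := mul_le_mul_left hvol _
    _ = ∫⁻ r in Ioc a₀ b₀, (α r) ^ 2 := by
        rw [mul_comm, ENNReal.mul_div_cancel_right hne ENNReal.ofReal_ne_top]
    _ ≤ ∫⁻ r in Ioc a b ∩ Icc (0 : ℝ) 1, (α r) ^ 2 := lintegral_mono_set hsub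

theorem cu_energy'_le_of_admissible {γ : Curve X} {α : ℝ → ℝ≥0∞} (hα : Measurable α)
    (hadm : ∀ s t : Time, (s : ℝ) ≤ (t : ℝ) → edist (γ s) (γ t) ≤ ∫⁻ r in Icc (s : ℝ) (t : ℝ), α r) :
    cu_energy' γ ≤ ∫⁻ r in Icc (0 : ℝ) 1, (α r) ^ 2 := by
  unfold cu_energy'
  refine iSup_le ?_
  rintro ⟨n, u, hu⟩
  have hd : Set.PairwiseDisjoint (↑(Finset.range n) : Set ℕ)
      (fun i => Ioc (u i) (u (i + 1)) ∩ Icc (0 : ℝ) 1) := by
    intro i _ j _ hij
    have h := hu.pairwise_disjoint_on_Ioc_succ hij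
    simp only [Function.onFun, Order.succ_eq_add_one] at h
    exact h.mono inter_subset_left inter_subset_left
  calc ∑ i ∈ Finset.range n, cu_term γ (u i) (u (i + 1))
      ≤ ∑ i ∈ Finset.range n, ∫⁻ r in Ioc (u i) (u (i + 1)) ∩ Icc (0 : ℝ) 1, (α r) ^ 2 :=
        Finset.sum_le_sum fun i _ => cu_term_le_lintegral hα hadm (hu (Nat.le_succ i))
    _ = ∫⁻ r in ⋃ i ∈ Finset.range n, (Ioc (u i) (u (i + 1)) ∩ Icc (0 : ℝ) 1), (α r) ^ 2 :=
        (lintegral_biUnion_finset hd (fun i _ => measurableSet_Ioc.inter measurableSet_Icc) _).symm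
    _ ≤ ∫⁻ r in Icc (0 : ℝ) 1, (α r) ^ 2 :=
        lintegral_mono_set (iUnion₂_subset fun i _ => inter_subset_right)

theorem cu_continuous_term {a b : ℝ} (hab : a ≤ b) : Continuous (fun γ : Curve X => cu_term γ a b) := by
  rcases hab.eq_or_lt with rfl | hlt
  · simp only [cu_term_self]
    exact continuous_const
  · have h0 : ENNReal.ofReal (b - a) ≠ 0 := by
      rw [Ne, ENNReal.ofReal_eq_zero, not_le]
      linarith
    unfold cu_term
    exact (ENNReal.continuous_div_const _ h0).comp ((ENNReal.continuous_pow 2).comp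
      ((cu_continuous_evalReal_time a).edist (cu_continuous_evalReal_time b)))

theorem cu_lsc_energy' : LowerSemicontinuous (cu_energy' : Curve X → ℝ≥0∞) := by
  unfold cu_energy'
  refine lowerSemicontinuous_iSup fun p => lowerSemicontinuous_sum fun i _ => ?_
  exact (cu_continuous_term (p.2.2 (Nat.le_succ i))).lowerSemicontinuous

end

end Claimed.Agent.R210.CU.Riesz
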