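/-
Row 210 (S0432), layer CU, file Compact (CU5, second half): Arzela-Ascoli in proper spaces.
* `cu_isCompact_of_equicontinuous`: Mathlib: `BoundedContinuousFunction.arzela_ascoli₂` (Mathlib/Topology/ContinuousMap/Bounded/ArzelaAscoli.lean) for `Time →ᵇ X`, transported by
  `BoundedContinuousFunction.equivContinuousMapOfCompact`/`ContinuousMap.equivBoundedOfCompact` (an isometry: `ContinuousMap.isometryEquivBoundedOfCompact`);  values in the compact set `closedBall o R`;
  or the general `ArzelaAscoli.isCompact_of_equicontinuous`-type statements (Mathlib/Topology/UniformSpace/Ascoli.lean, `ContinuousMap` version at the end of that file if present).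
* `cu_isCompact_geodesics`: closed (`cu_isClosed_geodesic`, continuity of evaluations, A, B closed);  `D := sup d(A,B) < ∞`; `d(γ_s,γ_t) ≤ |s-t| D` (equi-Lipschitz ⟹ equicontinuous: `LipschitzWith.uniformEquicontinuous`, or `Metric.equicontinuous_of_continuity_modulus`);  bounded.
* `cu_isCompact_energy`: closed (`cu_lsc_energy'.isClosed_preimage`/`LowerSemicontinuous.isClosed_preimage`), `d(γ_s,γ_t)² ≤ |t-s| c` (`cu_edist_sq_le`): modulus `b(r) = √(c r)`
  (`Metric.equicontinuous_of_continuity_modulus`);  bounded: `d(γ_t, o) ≤ d(γ_0,o) + √c`.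
-/
import Claimed.Agent.R210.CU.Riesz
import Claimed.Agent.R210.CU.Geo

set_option autoImplicit false

open Claims.C0366 Claims.C0366.WeakHessian
open Set Filter MeasureTheory TopologicalSpace
open scoped ENNReal NNReal Topology
open Claimed.Agent.R210.Defs Claimed.Agent.R210.CU.Defs Claimed.Agent.R210.CU.IfcBasic

open Claimed.Agent.R210.CU.Riesz Claimed.Agent.R210.CU.Geo

namespace Claimed.Agent.R210.CU.Compact

noncomputable section

variable {X : Type*} [MetricSpace X]

theorem cu_isCompact_of_equicontinuous [ProperSpace X] {A : Set (Curve X)} (hcl : IsClosed A)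
    (hb : ∃ (o : X) (R : ℝ), ∀ γ ∈ A, ∀ t : Time, dist (γ t) o ≤ R)
    (heq : Equicontinuous (fun (γ : A) (t : Time) => (γ : Curve X) t)) : IsCompact A := by
  obtain ⟨o, R, hR⟩ := hb
  let e := (ContinuousMap.isometryEquivBoundedOfCompact Time X).toHomeomorph
  rw [← e.isCompact_image]
  refine BoundedContinuousFunction.arzela_ascoli₂ (Metric.closedBall o R)
    (isCompact_closedBall o R) (e '' A) (e.isClosed_image.2 hcl) ?_ ?_
  · rintro f x ⟨γ, hγ, rfl⟩
    exact hR γ hγ x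
  · intro t U hU
    filter_upwards [heq t U hU] with s hs
    rintro ⟨f, γ, hγ, rfl⟩
    exact hs ⟨γ, hγ⟩

/-- Arzela-Ascoli with a common modulus of continuity, starting points in a compact set. -/
theorem cu_isCompact_of_modulus [ProperSpace X] {S : Set (Curve X)} (hcl : IsClosed S) {A : Set X}
    (hA : IsCompact A) (h0 : ∀ γ ∈ S, γ timeZero ∈ A) (M : ℝ)
    (hM : ∀ γ ∈ S, ∀ t : Time, dist (γ t) (γ timeZero) ≤ M) (b : ℝ → ℝ)
    (hb : Tendsto b (𝓝 0) (𝓝 0))
    (hmod : ∀ γ ∈ S, ∀ s t : Time, dist (γ s) (γ t) ≤ b (dist s t)) : IsCompact S := by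
  rcases S.eq_empty_or_nonempty with rfl | ⟨γ₀, hγ₀⟩
  · exact isCompact_empty
  obtain ⟨D, hD⟩ := Metric.isBounded_iff.1 hA.isBounded
  refine cu_isCompact_of_equicontinuous hcl ⟨γ₀ timeZero, M + D, fun γ hγ t => ?_⟩ ?_
  · calc dist (γ t) (γ₀ timeZero) ≤ dist (γ t) (γ timeZero) + dist (γ timeZero) (γ₀ timeZero) :=
          dist_triangle _ _ _
      _ ≤ M + D := add_le_add (hM γ hγ t) (hD (h0 γ hγ) (h0 γ₀ hγ₀))
  · exact Metric.equicontinuous_of_continuity_modulus b hb _ fun s t γ => hmod γ.1 γ.2 s t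

theorem cu_isCompact_geodesics [ProperSpace X] {A B : Set X} (hA : IsCompact A) (hB : IsCompact B) :
    IsCompact {γ : Curve X | IsGeodesic γ ∧ γ timeZero ∈ A ∧ γ timeOne ∈ B} := by
  obtain ⟨D, hD⟩ := Metric.isBounded_iff.1 (hA.union hB).isBounded
  have hcl : IsClosed {γ : Curve X | IsGeodesic γ ∧ γ timeZero ∈ A ∧ γ timeOne ∈ B} :=
    cu_isClosed_geodesic.inter ((hA.isClosed.preimage (cu_continuous_eval_time timeZero)).inter
      (hB.isClosed.preimage (cu_continuous_eval_time timeOne)))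
  have hlen : ∀ γ ∈ {γ : Curve X | IsGeodesic γ ∧ γ timeZero ∈ A ∧ γ timeOne ∈ B},
      dist (γ timeZero) (γ timeOne) ≤ D := fun γ hγ => hD (Or.inl hγ.2.1) (Or.inr hγ.2.2)
  have hmod : ∀ γ ∈ {γ : Curve X | IsGeodesic γ ∧ γ timeZero ∈ A ∧ γ timeOne ∈ B},
      ∀ s t : Time, dist (γ s) (γ t) ≤ dist s t * D := by
    intro γ hγ s t
    rw [hγ.1 s t]
    exact mul_le_mul_of_nonneg_left (hlen γ hγ) (abs_nonneg _)
  refine cu_isCompact_of_modulus hcl hA (fun γ hγ => hγ.2.1) D (fun γ hγ t => ?_)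
    (fun r => r * D) ?_ hmod
  · have hD0 : 0 ≤ D := dist_nonneg.trans (hlen γ hγ)
    refine (hmod γ hγ t timeZero).trans ?_
    have h1 : dist t timeZero ≤ 1 := by
      have : dist t timeZero = |(t : ℝ) - 0| := rfl
      rw [this, sub_zero, abs_of_nonneg t.2.1]
      exact t.2.2
    calc dist t timeZero * D ≤ 1 * D := mul_le_mul_of_nonneg_right h1 hD0
      _ = D := one_mul D
  · have : Tendsto (fun r : ℝ => r * D) (𝓝 0) (𝓝 (0 * D)) := tendsto_id.mul_const D
    simpa using this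

/-- Hoelder-1/2 bound from the Riesz energy (ordered times). -/
theorem cu_dist_le_sqrt_of_le {γ : Curve X} {c : ℝ≥0} (hc : cu_energy' γ ≤ c) {s t : Time}
    (hst : (s : ℝ) ≤ (t : ℝ)) : dist (γ s) (γ t) ≤ Real.sqrt (((t : ℝ) - (s : ℝ)) * c) := by
  have h := cu_edist_sq_le γ hst
  rw [cu_evalReal_coe, cu_evalReal_coe] at h
  have h2 : edist (γ s) (γ t) ^ 2 ≤ ENNReal.ofReal (((t : ℝ) - (s : ℝ)) * c) := by
    refine h.trans ?_
    rw [ENNReal.ofReal_mul (sub_nonneg.2 hst), ENNReal.ofReal_coe_nnreal]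
    exact mul_le_mul_right hc _
  rw [edist_dist, ← ENNReal.ofReal_pow dist_nonneg] at h2
  have h3 : dist (γ s) (γ t) ^ 2 ≤ ((t : ℝ) - (s : ℝ)) * c :=
    (ENNReal.ofReal_le_ofReal_iff (mul_nonneg (sub_nonneg.2 hst) c.2)).1 h2
  exact Real.le_sqrt_of_sq_le h3

/-- Hoelder-1/2 bound from the Riesz energy. -/
theorem cu_dist_le_sqrt {γ : Curve X} {c : ℝ≥0} (hc : cu_energy' γ ≤ c) (s t : Time) :
    dist (γ s) (γ t) ≤ Real.sqrt (dist s t * c) := by
  have hd : dist s t = |(s : ℝ) - (t : ℝ)| := rfl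
  rcases le_total (s : ℝ) (t : ℝ) with hst | hst
  · rw [hd, abs_sub_comm, abs_of_nonneg (sub_nonneg.2 hst)]
    exact cu_dist_le_sqrt_of_le hc hst
  · rw [hd, abs_of_nonneg (sub_nonneg.2 hst), dist_comm]
    exact cu_dist_le_sqrt_of_le hc hst

theorem cu_isCompact_energy [ProperSpace X] {A : Set X} (hA : IsCompact A) (c : ℝ≥0) :
    IsCompact {γ : Curve X | γ timeZero ∈ A ∧ cu_energy' γ ≤ c} := by
  have hcl : IsClosed {γ : Curve X | γ timeZero ∈ A ∧ cu_energy' γ ≤ c} :=
    (hA.isClosed.preimage (cu_continuous_eval_time timeZero)).inter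
      (cu_lsc_energy'.isClosed_preimage (c : ℝ≥0∞))
  have hmod : ∀ γ ∈ {γ : Curve X | γ timeZero ∈ A ∧ cu_energy' γ ≤ c},
      ∀ s t : Time, dist (γ s) (γ t) ≤ Real.sqrt (dist s t * c) := by
    intro γ hγ s t
    exact cu_dist_le_sqrt hγ.2 s t
  refine cu_isCompact_of_modulus hcl hA (fun γ hγ => hγ.1) (Real.sqrt c) (fun γ hγ t => ?_)
    (fun r => Real.sqrt (r * c)) ?_ hmod
  · refine (hmod γ hγ t timeZero).trans (Real.sqrt_le_sqrt ?_)
    have h1 : dist t timeZero ≤ 1 := by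
      have : dist t timeZero = |(t : ℝ) - 0| := rfl
      rw [this, sub_zero, abs_of_nonneg t.2.1]
      exact t.2.2
    calc dist t timeZero * (c : ℝ) ≤ 1 * c := mul_le_mul_of_nonneg_right h1 c.2
      _ = c := one_mul _
  · have : Tendsto (fun r : ℝ => Real.sqrt (r * c)) (𝓝 0) (𝓝 (Real.sqrt (0 * c))) :=
      (Real.continuous_sqrt.tendsto _).comp (tendsto_id.mul_const (c : ℝ))
    simpa using this

end

end Claimed.Agent.R210.CU.Compact
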