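/-
Row 210 (S0432), layer CU, file Dyadic: the Riesz energy is the supremum of the DYADIC energies (bridge to layer LI: `li_en n γ = cu_dyen n γ` by `rfl`,
because `γ (clampTime x) = evalReal γ x` by `rfl`).
* `cu_term_grid_le`: `j ≤ k`.  If `j = k`: `cu_term_self`.  Otherwise `edist_le_Ico_sum_edist` (for `f i = evalReal γ (i/2^n)`), then Cauchy-Schwarz `(Σ_{Ico j k} d_i)² ≤ (k-j) Σ d_i²`
  (`sq_sum_le_card_mul_sum_sq` in `ℝ≥0` with `edist_nndist`, then cast; `Nat.card_Ico`), and divide by `ofReal ((k-j)/2^n)`.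
* `cu_sum_grid_le`: induction on N with `Finset.sum_range_succ`, `cu_term_grid_le`, `Finset.sum_Ico_consecutive`;  finally `Ico (k 0) (k N) ⊆ range (2^n)` (`Finset.sum_le_sum_of_subset`).
* `cu_term_clamp_le`: same `edist` (`evalReal γ a = evalReal γ (clampTime a)`: `cu_evalReal_coe`, `rfl`), and `clamp b - clamp a ≤ b - a`; if `clamp a = clamp b` the term is 0.
* `cu_tendsto_term`: `a < b`, `a_n → a`, `b_n → b`: continuity of `evalReal γ` (`cu_continuous_evalReal_curve`), `ENNReal.Tendsto.div` (the limit of the denominators is `ofReal (b-a) ≠ 0`, numerators finite), `ENNReal.continuous_ofReal`.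
* `cu_energy'_le_dyadic`: fix `(N,u)`; by `cu_term_clamp_le` wlog `u i ∈ [0,1]`;  `k n i := ⌊2^n * u i⌋₊ ≤ 2^n`, monotone in i, `k n i / 2^n → u i` (`tendsto_nat_floor_mul_div_atTop` composed with `2^n → ∞`, or by hand `|..| ≤ 2^{-n}`);
  `T n := Σ_{i<N} if u i < u (i+1) then cu_term γ (k n i/2^n) (k n (i+1)/2^n) else 0 ≤ cu_dyen n γ ≤ sup`  and `T n → Σ_{i<N} cu_term γ (u i) (u (i+1))` (`tendsto_finset_sum`);  `le_of_tendsto'`.
* `cu_dyen_le_energy'`: `cu_sum_le_energy'` with `u i = i/2^n`;  `cu_term γ (i/2^n) ((i+1)/2^n) = 2^n * edist²`.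
-/
import Claimed.Agent.R210.CU.Riesz

set_option autoImplicit false

open Claims.C0366 Claims.C0366.WeakHessian
open Set Filter MeasureTheory TopologicalSpace
open scoped ENNReal NNReal Topology
open Claimed.Agent.R210.Defs Claimed.Agent.R210.CU.Defs Claimed.Agent.R210.CU.IfcBasic

open Claimed.Agent.R210.CU.Riesz

namespace Claimed.Agent.R210.CU.Dyadic

noncomputable section

variable {X : Type*} [MetricSpace X]

theorem cu_term_grid_le (γ : Curve X) (n : ℕ) {j k : ℕ} (hjk : j ≤ k) :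
    cu_term γ ((j : ℝ) / 2 ^ n) ((k : ℝ) / 2 ^ n)
      ≤ ∑ i ∈ Finset.Ico j k,
        (2 : ℝ≥0∞) ^ n * edist (evalReal γ ((i : ℝ) / 2 ^ n)) (evalReal γ (((i + 1 : ℕ) : ℝ) / 2 ^ n)) ^ 2 := by
  rcases hjk.eq_or_lt with rfl | hlt
  · rw [cu_term_self]; exact bot_le
  have hden : ENNReal.ofReal ((k : ℝ) / 2 ^ n - (j : ℝ) / 2 ^ n) = (((k - j : ℕ) : ℝ≥0∞)) / 2 ^ n := by
    rw [← sub_div, ← Nat.cast_sub hjk, ENNReal.ofReal_div_of_pos (by positivity), ENNReal.ofReal_natCast,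
      ENNReal.ofReal_pow (by norm_num)]
    norm_num
  have h2n0 : (2 : ℝ≥0∞) ^ n ≠ 0 := pow_ne_zero _ (by norm_num)
  have h2nt : (2 : ℝ≥0∞) ^ n ≠ ∞ := ENNReal.pow_ne_top (by norm_num)
  have hc0 : ((k - j : ℕ) : ℝ≥0∞) ≠ 0 := by
    rw [Nat.cast_ne_zero]; omega
  have h0 : (((k - j : ℕ) : ℝ≥0∞)) / 2 ^ n ≠ 0 := ENNReal.div_ne_zero.2 ⟨hc0, h2nt⟩
  have ht : (((k - j : ℕ) : ℝ≥0∞)) / 2 ^ n ≠ ∞ := ENNReal.div_ne_top (ENNReal.natCast_ne_top _) h2n0
  unfold cu_term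
  rw [hden, ENNReal.div_le_iff h0 ht, ← Finset.mul_sum]
  have h1 := edist_le_Ico_sum_edist (fun i : ℕ => evalReal γ ((i : ℝ) / 2 ^ n)) hjk
  have h2 : (∑ i ∈ Finset.Ico j k, edist (evalReal γ ((i : ℝ) / 2 ^ n)) (evalReal γ (((i + 1 : ℕ) : ℝ) / 2 ^ n))) ^ 2
      ≤ ((k - j : ℕ) : ℝ≥0∞) * ∑ i ∈ Finset.Ico j k,
        edist (evalReal γ ((i : ℝ) / 2 ^ n)) (evalReal γ (((i + 1 : ℕ) : ℝ) / 2 ^ n)) ^ 2 := by
    have h3 := sq_sum_le_card_mul_sum_sq (s := Finset.Ico j k)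
      (f := fun i : ℕ => nndist (evalReal γ ((i : ℝ) / 2 ^ n)) (evalReal γ (((i + 1 : ℕ) : ℝ) / 2 ^ n)))
    rw [Nat.card_Ico] at h3
    simp only [edist_nndist]
    exact_mod_cast h3
  calc edist (evalReal γ ((j : ℝ) / 2 ^ n)) (evalReal γ ((k : ℝ) / 2 ^ n)) ^ 2
      ≤ (∑ i ∈ Finset.Ico j k, edist (evalReal γ ((i : ℝ) / 2 ^ n)) (evalReal γ (((i + 1 : ℕ) : ℝ) / 2 ^ n))) ^ 2 :=
        pow_le_pow_left₀ bot_le h1 2
    _ ≤ _ := h2
    _ = ((2 : ℝ≥0∞) ^ n * ((2 : ℝ≥0∞) ^ n)⁻¹) * (((k - j : ℕ) : ℝ≥0∞) * ∑ i ∈ Finset.Ico j k,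
        edist (evalReal γ ((i : ℝ) / 2 ^ n)) (evalReal γ (((i + 1 : ℕ) : ℝ) / 2 ^ n)) ^ 2) := by
        rw [ENNReal.mul_inv_cancel h2n0 h2nt, one_mul]
    _ = _ := by rw [div_eq_mul_inv]; ring

theorem cu_sum_grid_le (γ : Curve X) (n N : ℕ) {k : ℕ → ℕ} (hk : Monotone k) (hk2 : ∀ i, k i ≤ 2 ^ n) :
    ∑ i ∈ Finset.range N, cu_term γ ((k i : ℝ) / 2 ^ n) ((k (i + 1) : ℝ) / 2 ^ n) ≤ cu_dyen n γ := by
  have key : ∀ N : ℕ, ∑ i ∈ Finset.range N, cu_term γ ((k i : ℝ) / 2 ^ n) ((k (i + 1) : ℝ) / 2 ^ n)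
      ≤ ∑ i ∈ Finset.Ico (k 0) (k N),
        (2 : ℝ≥0∞) ^ n * edist (evalReal γ ((i : ℝ) / 2 ^ n)) (evalReal γ (((i + 1 : ℕ) : ℝ) / 2 ^ n)) ^ 2 := by
    intro N
    induction N with
    | zero => simp
    | succ N ih =>
      rw [Finset.sum_range_succ, ← Finset.sum_Ico_consecutive _ (hk (Nat.zero_le N)) (hk (Nat.le_succ N))]
      exact add_le_add ih (cu_term_grid_le γ n (hk (Nat.le_succ N)))
  refine (key N).trans ?_
  unfold cu_dyen
  refine Finset.sum_le_sum_of_subset ?_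
  intro i hi
  rw [Finset.mem_Ico] at hi
  rw [Finset.mem_range]
  exact lt_of_lt_of_le hi.2 (hk2 N)

theorem cu_term_clamp_le (γ : Curve X) {a b : ℝ} (hab : a ≤ b) :
    cu_term γ a b ≤ cu_term γ (clampTime a : ℝ) (clampTime b : ℝ) := by
  unfold cu_term
  rw [cu_evalReal_coe, cu_evalReal_coe]
  have h : ((clampTime b : Time) : ℝ) - ((clampTime a : Time) : ℝ) ≤ b - a := by
    show max 0 (min 1 b) - max 0 (min 1 a) ≤ b - a
    rcases le_total 1 b with h1 | h1 <;> rcases le_total 1 a with h2 | h2 <;>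
      rcases le_total 0 b with h3 | h3 <;> rcases le_total 0 a with h4 | h4 <;>
      simp only [h1, h2, h3, h4, min_eq_left, min_eq_right, max_eq_left, max_eq_right, zero_le_one] <;>
      linarith
  exact ENNReal.div_le_div_left (ENNReal.ofReal_le_ofReal h) _

theorem cu_tendsto_term (γ : Curve X) {a b : ℝ} (hab : a < b) {α β : ℕ → ℝ}
    (hα : Tendsto α atTop (𝓝 a)) (hβ : Tendsto β atTop (𝓝 b)) :
    Tendsto (fun n => cu_term γ (α n) (β n)) atTop (𝓝 (cu_term γ a b)) := by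
  unfold cu_term
  have hc := cu_continuous_evalReal_curve γ
  have h0 : ENNReal.ofReal (b - a) ≠ 0 := by
    rw [Ne, ENNReal.ofReal_eq_zero, not_le]
    linarith
  have h1 : Tendsto (fun n => edist (evalReal γ (α n)) (evalReal γ (β n)) ^ 2) atTop
      (𝓝 (edist (evalReal γ a) (evalReal γ b) ^ 2)) :=
    ((ENNReal.continuous_pow 2).tendsto _).comp
      (((hc.tendsto a).comp hα).edist ((hc.tendsto b).comp hβ))
  have h2 : Tendsto (fun n => ENNReal.ofReal (β n - α n)) atTop (𝓝 (ENNReal.ofReal (b - a))) :=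
    (ENNReal.continuous_ofReal.tendsto _).comp (hβ.sub hα)
  exact ENNReal.Tendsto.div h1 (Or.inr h0) h2 (Or.inl ENNReal.ofReal_ne_top)

/-- dyadic floor approximation converges -/
theorem cu_tendsto_floor_dyadic {v : ℝ} (hv : 0 ≤ v) :
    Tendsto (fun n : ℕ => ((⌊(2 : ℝ) ^ n * v⌋₊ : ℕ) : ℝ) / 2 ^ n) atTop (𝓝 v) := by
  have h2 : Tendsto (fun n : ℕ => (2 : ℝ) ^ n) atTop atTop := tendsto_pow_atTop_atTop_of_one_lt (by norm_num)
  have := (tendsto_nat_floor_mul_div_atTop (R := ℝ) hv).comp h2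
  refine this.congr (fun n => ?_)
  simp [Function.comp, mul_comm]

theorem cu_energy'_le_dyadic (γ : Curve X) : cu_energy' γ ≤ ⨆ n, cu_dyen n γ := by
  unfold cu_energy'
  refine iSup_le ?_
  rintro ⟨N, u, hu⟩
  simp only
  set v : ℕ → ℝ := fun i => (clampTime (u i) : ℝ) with hv
  have hvmono : Monotone v := fun i j hij => cu_clampTime_mono (hu hij)
  have hv0 : ∀ i, 0 ≤ v i := fun i => (clampTime (u i)).2.1
  have hv1 : ∀ i, v i ≤ 1 := fun i => (clampTime (u i)).2.2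
  have step1 : ∑ i ∈ Finset.range N, cu_term γ (u i) (u (i + 1))
      ≤ ∑ i ∈ Finset.range N, cu_term γ (v i) (v (i + 1)) :=
    Finset.sum_le_sum (fun i _ => cu_term_clamp_le γ (hu (Nat.le_succ i)))
  refine step1.trans ?_
  set k : ℕ → ℕ → ℕ := fun n i => ⌊(2 : ℝ) ^ n * v i⌋₊ with hk
  have hkmono : ∀ n, Monotone (k n) := fun n i j hij =>
    Nat.floor_mono (mul_le_mul_of_nonneg_left (hvmono hij) (by positivity))
  have hk2 : ∀ n i, k n i ≤ 2 ^ n := by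
    intro n i
    have : (2 : ℝ) ^ n * v i ≤ ((2 ^ n : ℕ) : ℝ) := by
      push_cast
      calc (2 : ℝ) ^ n * v i ≤ (2 : ℝ) ^ n * 1 := mul_le_mul_of_nonneg_left (hv1 i) (by positivity)
        _ = 2 ^ n := mul_one _
    calc k n i ≤ ⌊((2 ^ n : ℕ) : ℝ)⌋₊ := Nat.floor_mono this
      _ = 2 ^ n := Nat.floor_natCast _
  set T : ℕ → ℝ≥0∞ := fun n => ∑ i ∈ Finset.range N,
    (if v i < v (i + 1) then cu_term γ ((k n i : ℝ) / 2 ^ n) ((k n (i + 1) : ℝ) / 2 ^ n) else 0) with hT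
  have hTle : ∀ n, T n ≤ ⨆ n, cu_dyen n γ := by
    intro n
    calc T n ≤ ∑ i ∈ Finset.range N, cu_term γ ((k n i : ℝ) / 2 ^ n) ((k n (i + 1) : ℝ) / 2 ^ n) := by
          refine Finset.sum_le_sum (fun i _ => ?_)
          split_ifs
          · exact le_rfl
          · exact zero_le
      _ ≤ cu_dyen n γ := cu_sum_grid_le γ n N (hkmono n) (hk2 n)
      _ ≤ ⨆ n, cu_dyen n γ := le_iSup (fun n => cu_dyen n γ) n
  have hTlim : Tendsto T atTop (𝓝 (∑ i ∈ Finset.range N, cu_term γ (v i) (v (i + 1)))) := by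
    refine tendsto_finsetSum _ (fun i _ => ?_)
    by_cases h : v i < v (i + 1)
    · simp only [h, if_true]
      exact cu_tendsto_term γ h (cu_tendsto_floor_dyadic (hv0 i)) (cu_tendsto_floor_dyadic (hv0 (i + 1)))
    · have heq : v (i + 1) = v i := le_antisymm (not_lt.mp h) (hvmono (Nat.le_succ i))
      simp only [h, if_false]
      rw [heq, cu_term_self]
      exact tendsto_const_nhds
  exact le_of_tendsto' hTlim hTle

theorem cu_dyen_le_energy' (γ : Curve X) (n : ℕ) : cu_dyen n γ ≤ cu_energy' γ := by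
  have hu : Monotone (fun i : ℕ => (i : ℝ) / 2 ^ n) := by
    intro i j hij
    have : (i : ℝ) ≤ (j : ℝ) := by exact_mod_cast hij
    dsimp only
    gcongr
  refine le_trans (le_of_eq ?_) (cu_sum_le_energy' γ (2 ^ n) hu)
  unfold cu_dyen
  refine Finset.sum_congr rfl fun i _ => ?_
  unfold cu_term
  have h1 : ((i + 1 : ℕ) : ℝ) / 2 ^ n - (i : ℝ) / 2 ^ n = ((2 : ℝ) ^ n)⁻¹ := by
    push_cast
    ring
  rw [h1, ENNReal.ofReal_inv_of_pos (by positivity), ENNReal.ofReal_pow (by norm_num),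
    ENNReal.ofReal_ofNat, ENNReal.div_eq_inv_mul, inv_inv]

theorem cu_energy'_eq_dyadic (γ : Curve X) : cu_energy' γ = ⨆ n, cu_dyen n γ :=
  le_antisymm (cu_energy'_le_dyadic γ) (iSup_le (cu_dyen_le_energy' γ))

end

end Claimed.Agent.R210.CU.Dyadic
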