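/-
Row 210 (S0432), layer CU, file AC (part of CU3).
An ADMISSIBLE function for γ: measurable `a : ℝ → ℝ≥0∞` with `edist (γ s) (γ t) ≤ ∫⁻_{[s,t]} a` for `s ≤ t` in `Time` (as in the frozen `IsAC2`).
* `cu_lintegral_lt_top_of_sq`: `∫⁻_{[0,1]} a ≤ ∫⁻_{[0,1]} (1 + a²) < ∞`   (`a ≤ 1 + a^2` in `ℝ≥0∞`).
* `cu_ac_of_admissible`: `b := fun r => (a r).toReal` is interval integrable on `[0,1]`, `F t := ∫ r in 0..t, b r` is absolutely continuous
  (`IntervalIntegrable.absolutelyContinuousOnInterval_intervalIntegral`), and `dist (γ_s) (γ_t) ≤ dist (F s) (F t)` for `s,t ∈ [0,1]`;  conclude with `absolutelyContinuousOnInterval_iff`.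
* `cu_speed_le_of_admissible`: Lebesgue differentiation for `a·1_{[0,1]}` (finite integral):  `VitaliFamily.ae_tendsto_lintegral_div` for `IsUnifLocDoublingMeasure.vitaliFamily`/
  `Real.tendsto_Icc_vitaliFamily_right`, `Real.tendsto_Icc_vitaliFamily_left` (Mathlib/MeasureTheory/Covering/OneDim.lean):  for a.e. `t ∈ (0,1)`:
  `(∫⁻_{[t,s]} a)/(s-t) → a t` as `s ↓ t` and `(∫⁻_{[s,t]} a)/(t-s) → a t` as `s ↑ t`;   `𝓝[≠] t = 𝓝[<] t ⊔ 𝓝[>] t`, `limsup_sup`;   `ofReal (d/|s-t|) ≤ (∫⁻ a)/ofReal |s-t|`.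
-/
import Claimed.Agent.R210.CU.IfcBasic

set_option autoImplicit false

open Claims.C0366 Claims.C0366.WeakHessian
open Set Filter MeasureTheory TopologicalSpace
open scoped ENNReal NNReal Topology
open Claimed.Agent.R210.Defs Claimed.Agent.R210.CU.Defs Claimed.Agent.R210.CU.IfcBasic

namespace Claimed.Agent.R210.CU.AC

noncomputable section

variable {X : Type*} [MetricSpace X]

theorem cu_lintegral_lt_top_of_sq {a : ℝ → ℝ≥0∞}
    (hfin : (∫⁻ t in Icc (0 : ℝ) 1, (a t) ^ 2) < ∞) : (∫⁻ t in Icc (0 : ℝ) 1, a t) < ∞ := by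
  have hle : ∀ x : ℝ≥0∞, x ≤ 1 + x ^ 2 := by
    intro x
    rcases le_total x 1 with h | h
    · exact h.trans le_self_add
    · calc x = x * 1 := (mul_one x).symm
        _ ≤ x * x := by gcongr
        _ = x ^ 2 := (sq x).symm
        _ ≤ 1 + x ^ 2 := le_add_self
  calc (∫⁻ t in Icc (0 : ℝ) 1, a t) ≤ ∫⁻ t in Icc (0 : ℝ) 1, (1 + (a t) ^ 2) := lintegral_mono fun t => hle (a t)
    _ = (∫⁻ _t in Icc (0 : ℝ) 1, 1) + ∫⁻ t in Icc (0 : ℝ) 1, (a t) ^ 2 := lintegral_add_left measurable_const _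
    _ < ∞ := by
      refine ENNReal.add_lt_top.2 ⟨?_, hfin⟩
      simp

theorem cu_ac_of_admissible {γ : Curve X} {a : ℝ → ℝ≥0∞} (ha : Measurable a)
    (hfin : (∫⁻ t in Icc (0 : ℝ) 1, a t) < ∞)
    (hadm : ∀ s t : Time, (s : ℝ) ≤ (t : ℝ) → edist (γ s) (γ t) ≤ ∫⁻ r in Icc (s : ℝ) (t : ℝ), a r) :
    AbsolutelyContinuousOnInterval (evalReal γ) 0 1 := by
  set b : ℝ → ℝ := fun r => (a r).toReal with hb
  have hbI : IntegrableOn b (Icc (0 : ℝ) 1) := integrable_toReal_of_lintegral_ne_top ha.aemeasurable hfin.ne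
  have hbi : IntervalIntegrable b volume 0 1 := (intervalIntegrable_iff_integrableOn_Icc_of_le zero_le_one).2 hbI
  set F : ℝ → ℝ := fun x => ∫ v in (0 : ℝ)..x, b v with hF
  have hFac : AbsolutelyContinuousOnInterval F 0 1 :=
    hbi.absolutelyContinuousOnInterval_intervalIntegral left_mem_uIcc
  -- integrability on subintervals
  have hsub : ∀ s t : ℝ, s ∈ Icc (0 : ℝ) 1 → t ∈ Icc (0 : ℝ) 1 → IntervalIntegrable b volume s t := by
    intro s t hs ht
    refine hbi.mono_set ?_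
    rw [uIcc_of_le zero_le_one]
    exact uIcc_subset_Icc hs ht
  -- the ordered estimate
  have hord : ∀ s t : ℝ, s ∈ Icc (0 : ℝ) 1 → t ∈ Icc (0 : ℝ) 1 → s ≤ t →
      dist (evalReal γ s) (evalReal γ t) ≤ F t - F s := by
    intro s t hs ht hst
    have h1 : F t - F s = ∫ v in s..t, b v :=
      intervalIntegral.integral_interval_sub_left (hsub 0 t ⟨le_rfl, zero_le_one⟩ ht) (hsub 0 s ⟨le_rfl, zero_le_one⟩ hs)
    have hfin' : (∫⁻ r in Icc s t, a r) < ∞ :=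
      (lintegral_mono_set (Icc_subset_Icc hs.1 ht.2)).trans_lt hfin
    have h2 : ∫ v in s..t, b v = (∫⁻ r in Icc s t, a r).toReal := by
      rw [intervalIntegral.integral_of_le hst, ← integral_Icc_eq_integral_Ioc]
      exact integral_toReal ha.aemeasurable (ae_lt_top ha hfin'.ne)
    rw [h1, h2, cu_evalReal_of_mem γ hs, cu_evalReal_of_mem γ ht, dist_edist]
    exact ENNReal.toReal_mono hfin'.ne (hadm ⟨s, hs⟩ ⟨t, ht⟩ hst)
  have hall : ∀ s t : ℝ, s ∈ Icc (0 : ℝ) 1 → t ∈ Icc (0 : ℝ) 1 →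
      dist (evalReal γ s) (evalReal γ t) ≤ dist (F s) (F t) := by
    intro s t hs ht
    rcases le_total s t with h | h
    · refine (hord s t hs ht h).trans ?_
      rw [dist_comm, Real.dist_eq]
      exact le_abs_self _
    · rw [dist_comm]
      refine (hord t s ht hs h).trans ?_
      rw [Real.dist_eq]
      exact le_abs_self _
  rw [absolutelyContinuousOnInterval_iff] at hFac ⊢
  intro ε hε
  obtain ⟨δ, hδ, h⟩ := hFac ε hε
  refine ⟨δ, hδ, fun E hE hlen => lt_of_le_of_lt (Finset.sum_le_sum fun i hi => ?_) (h E hE hlen)⟩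
  have hm := hE.1 i hi
  rw [uIcc_of_le zero_le_one] at hm
  exact hall _ _ hm.1 hm.2

/-- difference quotient `≤` mean value of `a·1_{[0,1]}` over `[s,t]`. -/
theorem cu_quot_le_of_admissible {γ : Curve X} {a : ℝ → ℝ≥0∞}
    (hadm : ∀ s t : Time, (s : ℝ) ≤ (t : ℝ) → edist (γ s) (γ t) ≤ ∫⁻ r in Icc (s : ℝ) (t : ℝ), a r)
    {s t : ℝ} (hs : s ∈ Icc (0 : ℝ) 1) (ht : t ∈ Icc (0 : ℝ) 1) (hst : s < t) :
    ENNReal.ofReal (dist (evalReal γ s) (evalReal γ t) / |s - t|)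
      ≤ (∫⁻ y in Icc s t, (Icc (0 : ℝ) 1).indicator a y) / volume (Icc s t) := by
  have habs : |s - t| = t - s := by rw [abs_sub_comm, abs_of_pos (sub_pos.2 hst)]
  rw [habs, ENNReal.ofReal_div_of_pos (sub_pos.2 hst), ← edist_dist, Real.volume_Icc]
  apply ENNReal.div_le_div_right
  have h1 : ∫⁻ y in Icc s t, (Icc (0 : ℝ) 1).indicator a y = ∫⁻ y in Icc s t, a y :=
    setLIntegral_congr_fun measurableSet_Icc
      (fun y hy => by
        have hy' : y ∈ Icc (0 : ℝ) 1 := ⟨hs.1.trans hy.1, hy.2.trans ht.2⟩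
        exact indicator_of_mem hy' a)
  rw [h1, cu_evalReal_of_mem γ hs, cu_evalReal_of_mem γ ht]
  exact hadm ⟨s, hs⟩ ⟨t, ht⟩ hst.le

theorem cu_speed_le_of_admissible {γ : Curve X} {a : ℝ → ℝ≥0∞} (ha : Measurable a)
    (hfin : (∫⁻ t in Icc (0 : ℝ) 1, a t) < ∞)
    (hadm : ∀ s t : Time, (s : ℝ) ≤ (t : ℝ) → edist (γ s) (γ t) ≤ ∫⁻ r in Icc (s : ℝ) (t : ℝ), a r) :
    ∀ᵐ t ∂(volume.restrict (Icc (0 : ℝ) 1)), metricSpeed γ t ≤ a t := by
  have hgm : Measurable ((Icc (0 : ℝ) 1).indicator a) := ha.indicator measurableSet_Icc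
  have hgfin : (∫⁻ y, (Icc (0 : ℝ) 1).indicator a y) ≠ ∞ := by
    rw [lintegral_indicator measurableSet_Icc]
    exact hfin.ne
  have hv := (IsUnifLocDoublingMeasure.vitaliFamily (volume : Measure ℝ) 1).ae_tendsto_lintegral_div
    hgm.aemeasurable hgfin
  have hIoo : ∀ᵐ t ∂(volume.restrict (Icc (0 : ℝ) 1)), t ∈ Ioo (0 : ℝ) 1 := by
    rw [← restrict_Ioo_eq_restrict_Icc]
    exact ae_restrict_mem measurableSet_Ioo
  filter_upwards [ae_restrict_of_ae hv, hIoo] with t ht htI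
  have htI' : t ∈ Icc (0 : ℝ) 1 := Ioo_subset_Icc_self htI
  rw [indicator_of_mem htI'] at ht
  have hR := ht.comp (Real.tendsto_Icc_vitaliFamily_right t)
  have hL := ht.comp (Real.tendsto_Icc_vitaliFamily_left t)
  have hnear : ∀ᶠ s in 𝓝 t, s ∈ Icc (0 : ℝ) 1 :=
    mem_of_superset (Ioo_mem_nhds htI.1 htI.2) Ioo_subset_Icc_self
  unfold metricSpeed
  rw [← nhdsLT_sup_nhdsGT, limsup_sup_filter]
  apply sup_le
  · rw [← hL.limsup_eq]
    refine limsup_le_limsup ?_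
    filter_upwards [self_mem_nhdsWithin, mem_nhdsWithin_of_mem_nhds hnear] with s hs hsI
    exact cu_quot_le_of_admissible hadm hsI htI' hs
  · rw [← hR.limsup_eq]
    refine limsup_le_limsup ?_
    filter_upwards [self_mem_nhdsWithin, mem_nhdsWithin_of_mem_nhds hnear] with s hs hsI
    have := cu_quot_le_of_admissible hadm htI' hsI hs
    rwa [dist_comm, abs_sub_comm] at this

end

end Claimed.Agent.R210.CU.AC
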