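/-
Row 210 (S0432), layer CU, file Slope (part of CU3).
`cu_phi γ n t = d(γ_t, x_n)`, `x_n = γ(q_n)`, `q_n` dense in `Time`;   `cu_slope γ t = sup_n |φ_n'(t)|`   (AGS, Gradient flows, Thm 1.1.2).
* `cu_measurable_slope`: `measurable_deriv`, `Measurable.iSup`.
* `cu_slope_le_speed` (EVERY t): fix n. If `φ_n` is not differentiable at t, `deriv = 0`. Otherwise `|φ_n(s) - φ_n(t)|/|s-t| → |φ_n'(t)|` along `𝓝[≠] t`
  (`hasDerivAt_iff_tendsto_slope`, `slope`, abs), and `|φ_n(s) - φ_n(t)| ≤ d(γ_s,γ_t)`;   `Tendsto.limsup_eq` + `Filter.limsup_le_limsup`   (`𝓝[≠] t` is `NeBot`).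
* `cu_edist_le_of_phi`: `q_{n}` dense, so there are n with `x_n` arbitrarily close to `γ_s`:  `|φ_n(t) - φ_n(s)| ≥ d(γ_t,γ_s) - 2 d(γ_s,x_n)`.
* `cu_edist_le_lintegral_slope`: `φ_n` is absolutely continuous on `[0,1]` (`absolutelyContinuousOnInterval_iff` + `cu_phi_sub_le`), restrict to `[s,t]` (`.mono`),
  `AbsolutelyContinuousOnInterval.integral_deriv_eq_sub`, `.intervalIntegrable_deriv`;   `|∫_s^t φ_n'| ≤ ∫_s^t |φ_n'| = (∫⁻ ofReal |φ_n'|).toReal`,  then `cu_edist_le_of_phi`.
-/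
import Claimed.Agent.R210.CU.IfcBasic

set_option autoImplicit false

open Claims.C0366 Claims.C0366.WeakHessian
open Set Filter MeasureTheory TopologicalSpace
open scoped ENNReal NNReal Topology
open Claimed.Agent.R210.Defs Claimed.Agent.R210.CU.Defs Claimed.Agent.R210.CU.IfcBasic

namespace Claimed.Agent.R210.CU.Slope

noncomputable section

variable {X : Type*} [MetricSpace X]

/-- distance to the n-th point of a dense sequence on the curve. -/
def cu_phi (γ : Curve X) (n : ℕ) (t : ℝ) : ℝ := dist (evalReal γ t) (γ (denseSeq Time n))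

/-- `sup_n |φ_n'|`. -/
def cu_slope (γ : Curve X) (t : ℝ) : ℝ≥0∞ := ⨆ n : ℕ, ENNReal.ofReal |deriv (cu_phi γ n) t|

theorem cu_slope_hygiene : True := by
  have := @cu_phi.eq_1.{0}
  have := @cu_slope.eq_1.{0}
  trivial

theorem cu_phi_sub_le (γ : Curve X) (n : ℕ) (s t : ℝ) :
    |cu_phi γ n s - cu_phi γ n t| ≤ dist (evalReal γ s) (evalReal γ t) := by
  unfold cu_phi
  exact abs_dist_sub_le _ _ _

theorem cu_measurable_slope (γ : Curve X) : Measurable (cu_slope γ) := by
  unfold cu_slope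
  refine Measurable.iSup fun n => ?_
  exact ENNReal.measurable_ofReal.comp ((measurable_deriv (cu_phi γ n)).norm)

theorem cu_slope_le_speed (γ : Curve X) (t : ℝ) : cu_slope γ t ≤ metricSpeed γ t := by
  unfold cu_slope
  refine iSup_le fun n => ?_
  by_cases hd : DifferentiableAt ℝ (cu_phi γ n) t
  · have h1 : Tendsto (slope (cu_phi γ n) t) (𝓝[≠] t) (𝓝 (deriv (cu_phi γ n) t)) :=
      hasDerivAt_iff_tendsto_slope.1 hd.hasDerivAt
    have h2 : Tendsto (fun s => ENNReal.ofReal |slope (cu_phi γ n) t s|) (𝓝[≠] t)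
        (𝓝 (ENNReal.ofReal |deriv (cu_phi γ n) t|)) :=
      (ENNReal.continuous_ofReal.tendsto _).comp h1.abs
    rw [← h2.limsup_eq]
    unfold metricSpeed
    refine Filter.limsup_le_limsup ?_
    refine eventually_nhdsWithin_of_forall fun s hs => ?_
    have hs' : s - t ≠ 0 := sub_ne_zero.2 hs
    have hpos : 0 < |s - t| := abs_pos.2 hs'
    have e1 : |slope (cu_phi γ n) t s| = |cu_phi γ n s - cu_phi γ n t| / |s - t| := by
      rw [slope_def_field, abs_div]
    show ENNReal.ofReal |slope (cu_phi γ n) t s| ≤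
      ENNReal.ofReal (dist (evalReal γ s) (evalReal γ t) / |s - t|)
    rw [e1]
    exact ENNReal.ofReal_le_ofReal (div_le_div_of_nonneg_right (cu_phi_sub_le γ n s t) hpos.le)
  · rw [deriv_zero_of_not_differentiableAt hd]
    simp

theorem cu_edist_le_of_phi (γ : Curve X) (s t : ℝ) (c : ℝ≥0∞)
    (h : ∀ n, ENNReal.ofReal |cu_phi γ n t - cu_phi γ n s| ≤ c) :
    edist (evalReal γ s) (evalReal γ t) ≤ c := by
  refine ENNReal.le_of_forall_pos_le_add fun ε hε _ => ?_
  have hε2 : (0 : ℝ) < (ε : ℝ) / 2 := by positivity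
  -- a point of the dense sequence close to `clampTime s`
  have hopen : IsOpen {q : Time | dist (γ q) (evalReal γ s) < (ε : ℝ) / 2} :=
    isOpen_lt (γ.continuous.dist continuous_const) continuous_const
  have hne : {q : Time | dist (γ q) (evalReal γ s) < (ε : ℝ) / 2}.Nonempty :=
    ⟨clampTime s, by simpa [evalReal] using hε2⟩
  obtain ⟨n, hn⟩ := (denseRange_denseSeq Time).exists_mem_open hopen hne
  have hn' : dist (γ (denseSeq Time n)) (evalReal γ s) < (ε : ℝ) / 2 := hn
  have h1 : dist (evalReal γ s) (evalReal γ t) ≤ |cu_phi γ n t - cu_phi γ n s| + ε := by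
    have h2 : dist (evalReal γ s) (evalReal γ t) ≤
        dist (evalReal γ s) (γ (denseSeq Time n)) + dist (γ (denseSeq Time n)) (evalReal γ t) :=
      dist_triangle _ _ _
    have h3 : cu_phi γ n t - cu_phi γ n s ≤ |cu_phi γ n t - cu_phi γ n s| := le_abs_self _
    have h4 : cu_phi γ n t = dist (γ (denseSeq Time n)) (evalReal γ t) := dist_comm _ _
    have h5 : cu_phi γ n s = dist (γ (denseSeq Time n)) (evalReal γ s) := dist_comm _ _
    have h6 : dist (evalReal γ s) (γ (denseSeq Time n)) = dist (γ (denseSeq Time n)) (evalReal γ s) :=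
      dist_comm _ _
    linarith
  calc edist (evalReal γ s) (evalReal γ t)
      = ENNReal.ofReal (dist (evalReal γ s) (evalReal γ t)) := edist_dist _ _
    _ ≤ ENNReal.ofReal (|cu_phi γ n t - cu_phi γ n s| + ε) := ENNReal.ofReal_le_ofReal h1
    _ = ENNReal.ofReal |cu_phi γ n t - cu_phi γ n s| + ENNReal.ofReal ε :=
        ENNReal.ofReal_add (abs_nonneg _) ε.coe_nonneg
    _ ≤ c + ε := by
        rw [ENNReal.ofReal_coe_nnreal]
        exact add_le_add (h n) le_rfl

theorem cu_phi_absolutelyContinuous {γ : Curve X}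
    (hac : AbsolutelyContinuousOnInterval (evalReal γ) 0 1) (n : ℕ) :
    AbsolutelyContinuousOnInterval (cu_phi γ n) 0 1 := by
  rw [absolutelyContinuousOnInterval_iff] at hac ⊢
  intro ε hε
  obtain ⟨δ, hδ, H⟩ := hac ε hε
  refine ⟨δ, hδ, fun E hE hlt => lt_of_le_of_lt (Finset.sum_le_sum fun i _ => ?_) (H E hE hlt)⟩
  rw [Real.dist_eq]
  exact cu_phi_sub_le γ n _ _

theorem cu_edist_le_lintegral_slope {γ : Curve X}
    (hac : AbsolutelyContinuousOnInterval (evalReal γ) 0 1) {s t : ℝ} (hs : 0 ≤ s) (hst : s ≤ t) (ht : t ≤ 1) :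
    edist (evalReal γ s) (evalReal γ t) ≤ ∫⁻ r in Icc s t, cu_slope γ r := by
  refine cu_edist_le_of_phi γ s t _ fun n => ?_
  have hacn : AbsolutelyContinuousOnInterval (cu_phi γ n) s t :=
    (cu_phi_absolutelyContinuous hac n).mono (by
      rw [uIcc_of_le hst, uIcc_of_le zero_le_one]
      exact Icc_subset_Icc hs ht)
  have hint : IntervalIntegrable (deriv (cu_phi γ n)) volume s t := hacn.intervalIntegrable_deriv
  have hI : IntegrableOn (deriv (cu_phi γ n)) (Ioc s t) volume :=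
    (intervalIntegrable_iff_integrableOn_Ioc_of_le hst).1 hint
  have hftc : ∫ x in s..t, deriv (cu_phi γ n) x = cu_phi γ n t - cu_phi γ n s :=
    hacn.integral_deriv_eq_sub
  have habs : |cu_phi γ n t - cu_phi γ n s| ≤ ∫ x in Ioc s t, |deriv (cu_phi γ n) x| := by
    rw [← hftc, intervalIntegral.integral_of_le hst]
    exact abs_integral_le_integral_abs
  calc ENNReal.ofReal |cu_phi γ n t - cu_phi γ n s|
      ≤ ENNReal.ofReal (∫ x in Ioc s t, |deriv (cu_phi γ n) x|) := ENNReal.ofReal_le_ofReal habs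
    _ = ∫⁻ x in Ioc s t, ENNReal.ofReal |deriv (cu_phi γ n) x| :=
        ofReal_integral_eq_lintegral_ofReal hI.abs (Eventually.of_forall fun _ => abs_nonneg _)
    _ ≤ ∫⁻ x in Ioc s t, cu_slope γ x :=
        lintegral_mono fun x => le_iSup (fun n : ℕ => ENNReal.ofReal |deriv (cu_phi γ n) x|) n
    _ ≤ ∫⁻ x in Icc s t, cu_slope γ x := lintegral_mono_set Ioc_subset_Icc_self

end

end Claimed.Agent.R210.CU.Slope
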