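/-
Row 210 (S0432), layer CU, file Eloc (part of CU3): finite Riesz energy implies absolute continuity, and `∫ cu_slope² ≤ cu_energy'`.
`cu_eloc γ c` = Riesz energy of γ "up to time c" (monotone sequences bounded by c).
* `cu_eloc_add_term_le`: given `(n,u)` with `u ≤ a`, use `u' i = if i ≤ n then u i else if i = n+1 then a else b` and `n+2`:
  `Σ_{i<n+2} = Σ_{i<n} term(u i, u(i+1)) + term(u n, a) + term(a,b)`.   (`ENNReal.iSup_add`, or: `∀ p, S p + term ≤ eloc b` then `iSup_add_le`-type lemma.)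
* `cu_sum_disjoint_le`: claim  P(S): `∀ c, (∀ i ∈ S, lo i < hi i → hi i ≤ c) → Σ_{i∈S} term (lo i) (hi i) ≤ cu_eloc γ c`,   by `Finset.induction_on_max_value hi`:
  insert `j` with `hi x ≤ hi j` for `x ∈ s`.  If `lo j = hi j`: term = 0 (`cu_term_self`).  If `lo j < hi j`: every nondegenerate `x ∈ s` has `hi x ≤ lo j`
  (otherwise `hi x ∈ Ioc (lo j) (hi j) ∩ Ioc (lo x) (hi x)`), so `Σ_s ≤ eloc (lo j)` and `cu_eloc_add_term_le`, `cu_eloc_mono`.    Finally `cu_eloc_le`.
* `cu_sum_dist_le`: Cauchy-Schwarz for finite sums:  `Σ d_i = Σ (d_i/√ℓ_i) √ℓ_i ≤ √(Σ d_i²/ℓ_i) √(Σ ℓ_i)`   (`Finset.sum_mul_sq_le_sq_mul_sq` / `Real.sum_mul_le_sqrt_mul_sqrt`; terms with `ℓ_i = 0` have `d_i = 0`).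
* `cu_ac_of_energy'`: `absolutelyContinuousOnInterval_iff`;  for `E ∈ disjWithin 0 1` put `lo i = min (E.2 i).1 (E.2 i).2`, `hi i = max ..` (`uIoc` = `Ioc (min) (max)`);  `δ = ε²/(E'+1)`.
* `cu_lintegral_slope_sq_le`: wlog `E' := cu_energy' γ < ∞`.  `e c := (cu_eloc γ c).toReal` is monotone, `0 ≤ e ≤ E'`, `d(γ_a,γ_b)² ≤ (b-a)(e b - e a)` for `a ≤ b`.
  e is differentiable a.e. (`Monotone.ae_differentiableAt`).  At such a t, for every n:  `|φ_n'(t)|² ≤ e'(t)`  (if φ_n is differentiable at t:  limit `h ↓ 0` of `|φ_n(t+h) - φ_n(t)|²/h² ≤ (e(t+h) - e t)/h`; otherwise `deriv = 0 ≤ e'(t)`).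
  So `cu_slope γ t ^2 ≤ ofReal (deriv e t)` a.e., and `∫⁻_{[0,1]} ofReal (deriv e) ≤ ofReal (e 1 - e 0) ≤ E'`   (`MonotoneOn.intervalIntegrable_deriv`, `MonotoneOn.intervalIntegral_deriv_mem_uIcc`,
  `ofReal_integral_eq_lintegral_ofReal`; Mathlib/MeasureTheory/Integral/IntervalIntegral/DerivIntegrable.lean).
-/
import Claimed.Agent.R210.CU.Riesz
import Claimed.Agent.R210.CU.Slope

set_option autoImplicit false

open Claims.C0366 Claims.C0366.WeakHessian
open Set Filter MeasureTheory TopologicalSpace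
open scoped ENNReal NNReal Topology
open Claimed.Agent.R210.Defs Claimed.Agent.R210.CU.Defs Claimed.Agent.R210.CU.IfcBasic

open Claimed.Agent.R210.CU.Riesz Claimed.Agent.R210.CU.Slope

namespace Claimed.Agent.R210.CU.Eloc

noncomputable section

variable {X : Type*} [MetricSpace X]

/-- Riesz energy up to time `c`. -/
def cu_eloc (γ : Curve X) (c : ℝ) : ℝ≥0∞ :=
  ⨆ p : ℕ × {u : ℕ → ℝ // Monotone u ∧ ∀ i, u i ≤ c},
    ∑ i ∈ Finset.range p.1, cu_term γ (p.2.1 i) (p.2.1 (i + 1))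

theorem cu_eloc_hygiene : True := by
  have := @cu_eloc.eq_1.{0}
  trivial

theorem cu_eloc_mono (γ : Curve X) : Monotone (cu_eloc γ) := by
  intro c c' hcc
  unfold cu_eloc
  refine iSup_le fun p => ?_
  exact le_iSup (fun q : ℕ × {u : ℕ → ℝ // Monotone u ∧ ∀ i, u i ≤ c'} =>
    ∑ i ∈ Finset.range q.1, cu_term γ (q.2.1 i) (q.2.1 (i + 1)))
    (p.1, ⟨p.2.1, p.2.2.1, fun i => (p.2.2.2 i).trans hcc⟩)

theorem cu_eloc_le (γ : Curve X) (c : ℝ) : cu_eloc γ c ≤ cu_energy' γ := by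
  unfold cu_eloc
  exact iSup_le fun p => cu_sum_le_energy' γ p.1 p.2.2.1

theorem cu_eloc_add_term_le (γ : Curve X) {a b : ℝ} (hab : a ≤ b) :
    cu_eloc γ a + cu_term γ a b ≤ cu_eloc γ b := by
  have key : ∀ p : ℕ × {u : ℕ → ℝ // Monotone u ∧ ∀ i, u i ≤ a},
      (∑ i ∈ Finset.range p.1, cu_term γ (p.2.1 i) (p.2.1 (i + 1))) + cu_term γ a b
        ≤ cu_eloc γ b := by
    rintro ⟨n, u, hu, hua⟩
    set u' : ℕ → ℝ := fun i => if i ≤ n then u i else if i = n + 1 then a else b with hu'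
    have hmono : Monotone u' := by
      intro i j hij
      simp only [hu']
      by_cases hi : i ≤ n
      · by_cases hj : j ≤ n
        · simp only [hi, hj, if_true]; exact hu hij
        · by_cases hj1 : j = n + 1
          · simp only [hi, hj, hj1, if_true, if_false]
            simpa using hua i
          · simp only [hi, hj, hj1, if_true, if_false]
            exact (hua i).trans hab
      · have hj : ¬ j ≤ n := fun h => hi (hij.trans h)
        by_cases hi1 : i = n + 1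
        · by_cases hj1 : j = n + 1
          · simp [hi, hj, hi1, hj1]
          · simp only [hi, hj, hi1, hj1, if_true, if_false]
            simpa using hab
        · have hj1 : ¬ j = n + 1 := by omega
          simp [hi, hj, hi1, hj1]
    have hbd : ∀ i, u' i ≤ b := by
      intro i
      simp only [hu']
      split_ifs
      · exact (hua i).trans hab
      · exact hab
      · exact le_rfl
    have hsum : (∑ i ∈ Finset.range n, cu_term γ (u i) (u (i + 1))) + cu_term γ a b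
        ≤ ∑ i ∈ Finset.range (n + 2), cu_term γ (u' i) (u' (i + 1)) := by
      rw [Finset.sum_range_succ, Finset.sum_range_succ]
      have h1 : ∑ i ∈ Finset.range n, cu_term γ (u' i) (u' (i + 1))
          = ∑ i ∈ Finset.range n, cu_term γ (u i) (u (i + 1)) := by
        refine Finset.sum_congr rfl fun i hi => ?_
        have hi' : i < n := Finset.mem_range.mp hi
        have e1 : u' i = u i := by simp [hu', hi'.le]
        have e2 : u' (i + 1) = u (i + 1) := by
          have : i + 1 ≤ n := hi'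
          simp [hu', this]
        rw [e1, e2]
      have e3 : u' (n + 1) = a := by simp [hu']
      have e4 : u' (n + 1 + 1) = b := by simp [hu']
      rw [h1, e3, e4, add_assoc]
      gcongr
      exact le_add_self
    refine hsum.trans ?_
    exact le_iSup (fun q : ℕ × {u : ℕ → ℝ // Monotone u ∧ ∀ i, u i ≤ b} =>
      ∑ i ∈ Finset.range q.1, cu_term γ (q.2.1 i) (q.2.1 (i + 1)))
      (n + 2, ⟨u', hmono, hbd⟩)
  haveI : Nonempty (ℕ × {u : ℕ → ℝ // Monotone u ∧ ∀ i, u i ≤ a}) :=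
    ⟨(0, ⟨fun _ => a, monotone_const, fun _ => le_rfl⟩)⟩
  unfold cu_eloc at key ⊢
  rw [ENNReal.iSup_add]
  exact iSup_le key

theorem cu_sum_disjoint_le_eloc (γ : Curve X) {ι : Type} (S : Finset ι) (lo hi : ι → ℝ) :
    (∀ i ∈ S, lo i ≤ hi i) →
    ((S : Set ι).PairwiseDisjoint (fun i => Ioc (lo i) (hi i))) →
    ∀ c : ℝ, (∀ i ∈ S, lo i < hi i → hi i ≤ c) →
      ∑ i ∈ S, cu_term γ (lo i) (hi i) ≤ cu_eloc γ c := by
  classical
  refine Finset.induction_on_max_value hi S ?_ ?_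
  · intro _ _ c _
    simp
  · intro j s hjs hmax ih hle hdisj c hc
    have hle' : ∀ i ∈ s, lo i ≤ hi i := fun i hi' => hle i (Finset.mem_insert_of_mem hi')
    have hdisj' : (s : Set ι).PairwiseDisjoint (fun i => Ioc (lo i) (hi i)) :=
      hdisj.subset (by
        intro x hx
        exact Finset.mem_coe.2 (Finset.mem_insert_of_mem (Finset.mem_coe.1 hx)))
    rw [Finset.sum_insert hjs]
    rcases (hle j (Finset.mem_insert_self j s)).eq_or_lt with hj | hj
    · rw [hj, cu_term_self, zero_add]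
      exact ih hle' hdisj' c (fun i hi' h => hc i (Finset.mem_insert_of_mem hi') h)
    · have h1 : ∀ x ∈ s, lo x < hi x → hi x ≤ lo j := by
        intro x hx hlt
        by_contra hcon
        push Not at hcon
        have hne : x ≠ j := fun h => hjs (h ▸ hx)
        have hd := hdisj (Finset.mem_coe.2 (Finset.mem_insert_of_mem hx))
          (Finset.mem_coe.2 (Finset.mem_insert_self j s)) hne
        exact (Set.disjoint_left.1 hd) (a := hi x) ⟨hlt, le_refl _⟩ ⟨hcon, hmax x hx⟩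
      have h2 := ih hle' hdisj' (lo j) h1
      calc cu_term γ (lo j) (hi j) + ∑ i ∈ s, cu_term γ (lo i) (hi i)
          = ∑ i ∈ s, cu_term γ (lo i) (hi i) + cu_term γ (lo j) (hi j) := add_comm _ _
        _ ≤ cu_eloc γ (lo j) + cu_term γ (lo j) (hi j) := by gcongr
        _ ≤ cu_eloc γ (hi j) := cu_eloc_add_term_le γ hj.le
        _ ≤ cu_eloc γ c := cu_eloc_mono γ (hc j (Finset.mem_insert_self j s) hj)

theorem cu_sum_disjoint_le (γ : Curve X) {ι : Type} (S : Finset ι) (lo hi : ι → ℝ)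
    (hle : ∀ i ∈ S, lo i ≤ hi i)
    (hdisj : (S : Set ι).PairwiseDisjoint (fun i => Ioc (lo i) (hi i))) :
    ∑ i ∈ S, cu_term γ (lo i) (hi i) ≤ cu_energy' γ := by
  classical
  have key := cu_sum_disjoint_le_eloc γ S lo hi hle hdisj
  by_cases hS : S.Nonempty
  · obtain ⟨j, hj, hmax⟩ := S.exists_max_image hi hS
    exact (key (hi j) (fun i hi' _ => hmax i hi')).trans (cu_eloc_le γ _)
  · rw [Finset.not_nonempty_iff_eq_empty] at hS
    subst hS
    simp

theorem cu_sum_dist_le {γ : Curve X} (hE : cu_energy' γ < ∞) {ι : Type} (S : Finset ι) (lo hi : ι → ℝ)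
    (hle : ∀ i ∈ S, lo i ≤ hi i)
    (hdisj : (S : Set ι).PairwiseDisjoint (fun i => Ioc (lo i) (hi i))) :
    ∑ i ∈ S, dist (evalReal γ (lo i)) (evalReal γ (hi i))
      ≤ Real.sqrt ((cu_energy' γ).toReal) * Real.sqrt (∑ i ∈ S, (hi i - lo i)) := by
  have hsum := cu_sum_disjoint_le γ S lo hi hle hdisj
  have hfin : ∀ i ∈ S, cu_term γ (lo i) (hi i) ≠ ∞ := by
    intro i hi'
    have h1 : cu_term γ (lo i) (hi i) ≤ ∑ j ∈ S, cu_term γ (lo j) (hi j) :=
      Finset.single_le_sum (f := fun j => cu_term γ (lo j) (hi j)) (fun _ _ => zero_le) hi'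
    exact ((h1.trans hsum).trans_lt hE).ne
  have hT : ∑ i ∈ S, (cu_term γ (lo i) (hi i)).toReal ≤ (cu_energy' γ).toReal := by
    rw [← ENNReal.toReal_sum hfin]
    exact ENNReal.toReal_mono hE.ne hsum
  have hpt : ∀ i ∈ S, dist (evalReal γ (lo i)) (evalReal γ (hi i))
      ≤ Real.sqrt ((cu_term γ (lo i) (hi i)).toReal) * Real.sqrt (hi i - lo i) := by
    intro i hi'
    rcases (hle i hi').eq_or_lt with h | h
    · rw [h, dist_self]
      positivity
    · have hl : 0 < hi i - lo i := sub_pos.2 h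
      have e : (cu_term γ (lo i) (hi i)).toReal
          = dist (evalReal γ (lo i)) (evalReal γ (hi i)) ^ 2 / (hi i - lo i) := by
        unfold cu_term
        rw [ENNReal.toReal_div, ENNReal.toReal_pow, ENNReal.toReal_ofReal hl.le, edist_dist,
          ENNReal.toReal_ofReal dist_nonneg]
      rw [e, ← Real.sqrt_mul (by positivity), div_mul_cancel₀ _ hl.ne', Real.sqrt_sq dist_nonneg]
  calc ∑ i ∈ S, dist (evalReal γ (lo i)) (evalReal γ (hi i))
      ≤ ∑ i ∈ S, Real.sqrt ((cu_term γ (lo i) (hi i)).toReal) * Real.sqrt (hi i - lo i) :=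
        Finset.sum_le_sum hpt
    _ ≤ Real.sqrt (∑ i ∈ S, Real.sqrt ((cu_term γ (lo i) (hi i)).toReal) ^ 2)
          * Real.sqrt (∑ i ∈ S, Real.sqrt (hi i - lo i) ^ 2) := Real.sum_mul_le_sqrt_mul_sqrt _ _ _
    _ = Real.sqrt (∑ i ∈ S, (cu_term γ (lo i) (hi i)).toReal) * Real.sqrt (∑ i ∈ S, (hi i - lo i)) := by
        congr 2
        · exact Finset.sum_congr rfl fun i _ => Real.sq_sqrt ENNReal.toReal_nonneg
        · exact Finset.sum_congr rfl fun i hi' => Real.sq_sqrt (sub_nonneg.2 (hle i hi'))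
    _ ≤ Real.sqrt ((cu_energy' γ).toReal) * Real.sqrt (∑ i ∈ S, (hi i - lo i)) :=
        mul_le_mul_of_nonneg_right (Real.sqrt_le_sqrt hT) (Real.sqrt_nonneg _)

theorem cu_ac_of_energy' {γ : Curve X} (hE : cu_energy' γ < ∞) :
    AbsolutelyContinuousOnInterval (evalReal γ) 0 1 := by
  rw [absolutelyContinuousOnInterval_iff]
  intro ε hε
  obtain ⟨A, hA⟩ : ∃ A : ℝ, A = (cu_energy' γ).toReal := ⟨_, rfl⟩
  have hA0 : 0 ≤ A := hA ▸ ENNReal.toReal_nonneg
  refine ⟨ε ^ 2 / (A + 1), by positivity, ?_⟩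
  rintro ⟨n, I⟩ hI hlen
  simp only at hlen ⊢
  have hdisj : ((Finset.range n : Finset ℕ) : Set ℕ).PairwiseDisjoint
      (fun i => Ioc (min (I i).1 (I i).2) (max (I i).1 (I i).2)) := hI.2
  have h := cu_sum_dist_le hE (Finset.range n) (fun i => min (I i).1 (I i).2) (fun i => max (I i).1 (I i).2)
    (fun i _ => min_le_max) hdisj
  have e1 : ∀ i, dist (evalReal γ (min (I i).1 (I i).2)) (evalReal γ (max (I i).1 (I i).2))
      = dist (evalReal γ (I i).1) (evalReal γ (I i).2) := by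
    intro i
    rcases le_total (I i).1 (I i).2 with h1 | h1
    · rw [min_eq_left h1, max_eq_right h1]
    · rw [min_eq_right h1, max_eq_left h1, dist_comm]
  have e2 : ∀ i, max (I i).1 (I i).2 - min (I i).1 (I i).2 = dist (I i).1 (I i).2 := by
    intro i
    rw [Real.dist_eq, max_sub_min_eq_abs']
  simp only [e1, e2] at h
  rw [← hA] at h
  refine h.trans_lt ?_
  have h3 : Real.sqrt A * Real.sqrt (∑ i ∈ Finset.range n, dist (I i).1 (I i).2)
      = Real.sqrt (A * ∑ i ∈ Finset.range n, dist (I i).1 (I i).2) := (Real.sqrt_mul hA0 _).symm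
  rw [h3, Real.sqrt_lt' hε]
  have hs0 : 0 ≤ ∑ i ∈ Finset.range n, dist (I i).1 (I i).2 := Finset.sum_nonneg fun _ _ => dist_nonneg
  calc A * ∑ i ∈ Finset.range n, dist (I i).1 (I i).2
      ≤ A * (ε ^ 2 / (A + 1)) := mul_le_mul_of_nonneg_left hlen.le hA0
    _ < (A + 1) * (ε ^ 2 / (A + 1)) := by
        apply mul_lt_mul_of_pos_right (by linarith) (by positivity)
    _ = ε ^ 2 := by field_simp

/-- real form of superadditivity. -/
theorem cu_dist_sq_le_eloc {γ : Curve X} (hE : cu_energy' γ < ∞) {a b : ℝ} (hab : a ≤ b) :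
    dist (evalReal γ a) (evalReal γ b) ^ 2
      ≤ (b - a) * ((cu_eloc γ b).toReal - (cu_eloc γ a).toReal) := by
  rcases eq_or_lt_of_le hab with rfl | hlt
  · simp
  have hfin : ∀ c, cu_eloc γ c ≠ ∞ := fun c => ((cu_eloc_le γ c).trans_lt hE).ne
  have h := cu_eloc_add_term_le γ hab
  have hpos : 0 < b - a := sub_pos.2 hlt
  have hterm : cu_term γ a b = ENNReal.ofReal (dist (evalReal γ a) (evalReal γ b) ^ 2 / (b - a)) := by
    rw [cu_term, edist_dist, ENNReal.ofReal_div_of_pos hpos, ENNReal.ofReal_pow dist_nonneg]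
  rw [hterm] at h
  have h2 := ENNReal.toReal_mono (hfin b) h
  rw [ENNReal.toReal_add (hfin a) ENNReal.ofReal_ne_top,
    ENNReal.toReal_ofReal (by positivity)] at h2
  have h3 : dist (evalReal γ a) (evalReal γ b) ^ 2 / (b - a)
      ≤ (cu_eloc γ b).toReal - (cu_eloc γ a).toReal := by linarith
  rw [div_le_iff₀ hpos] at h3
  linarith

theorem cu_deriv_phi_sq_le {γ : Curve X} (hE : cu_energy' γ < ∞) (n : ℕ) {t : ℝ}
    (ht : DifferentiableAt ℝ (fun c => (cu_eloc γ c).toReal) t) :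
    (deriv (cu_phi γ n) t) ^ 2 ≤ deriv (fun c => (cu_eloc γ c).toReal) t := by
  have hfin : ∀ c, cu_eloc γ c ≠ ∞ := fun c => ((cu_eloc_le γ c).trans_lt hE).ne
  have hmono : Monotone (fun c => (cu_eloc γ c).toReal) := fun a b hab =>
    ENNReal.toReal_mono (hfin b) (cu_eloc_mono γ hab)
  by_cases hd : DifferentiableAt ℝ (cu_phi γ n) t
  · have h1 := (HasDerivAt.tendsto_slope hd.hasDerivAt).mono_left (nhdsGT_le_nhdsNE t)
    have h2 := (HasDerivAt.tendsto_slope ht.hasDerivAt).mono_left (nhdsGT_le_nhdsNE t)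
    have h1' := h1.pow 2
    refine le_of_tendsto_of_tendsto h1' h2 ?_
    filter_upwards [self_mem_nhdsWithin] with s hs
    have hs' : t < s := hs
    have hpos : 0 < s - t := sub_pos.2 hs'
    simp only [slope_def_field]
    have hk := cu_dist_sq_le_eloc hE hs'.le
    have hp := cu_phi_sub_le γ n s t
    have hp2 : (cu_phi γ n s - cu_phi γ n t) ^ 2 ≤ dist (evalReal γ t) (evalReal γ s) ^ 2 := by
      rw [← sq_abs]
      rw [dist_comm] at hp
      exact pow_le_pow_left₀ (abs_nonneg _) hp 2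
    rw [div_pow, div_le_div_iff₀ (by positivity) hpos]
    nlinarith [hk, hp2, hpos]
  · rw [deriv_zero_of_not_differentiableAt hd]
    simpa using hmono.deriv_nonneg

theorem cu_lintegral_slope_sq_le (γ : Curve X) :
    (∫⁻ t in Icc (0 : ℝ) 1, (cu_slope γ t) ^ 2) ≤ cu_energy' γ := by
  by_cases hE : cu_energy' γ < ∞
  swap
  · rw [not_lt, top_le_iff] at hE
    rw [hE]; exact le_top
  set e : ℝ → ℝ := fun c => (cu_eloc γ c).toReal with he
  have hfin : ∀ c, cu_eloc γ c ≠ ∞ := fun c => ((cu_eloc_le γ c).trans_lt hE).ne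
  have hmono : Monotone e := fun a b hab =>
    ENNReal.toReal_mono (hfin b) (cu_eloc_mono γ hab)
  have hae : ∀ᵐ t ∂(volume.restrict (Icc (0 : ℝ) 1)),
      (cu_slope γ t) ^ 2 ≤ ENNReal.ofReal (deriv e t) := by
    apply ae_restrict_of_ae
    filter_upwards [hmono.ae_differentiableAt] with t ht
    have hnn : 0 ≤ deriv e t := hmono.deriv_nonneg
    have hsup : cu_slope γ t ≤ ENNReal.ofReal (Real.sqrt (deriv e t)) := by
      apply iSup_le
      intro n
      apply ENNReal.ofReal_le_ofReal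
      apply Real.le_sqrt_of_sq_le
      rw [sq_abs]
      exact cu_deriv_phi_sq_le hE n ht
    calc (cu_slope γ t) ^ 2 ≤ (ENNReal.ofReal (Real.sqrt (deriv e t))) ^ 2 :=
          pow_le_pow_left' hsup 2
      _ = ENNReal.ofReal (deriv e t) := by
          rw [← ENNReal.ofReal_pow (Real.sqrt_nonneg _), Real.sq_sqrt hnn]
  have hint : IntervalIntegrable (deriv e) volume 0 1 :=
    (hmono.monotoneOn _).intervalIntegrable_deriv
  have hint' : Integrable (deriv e) (volume.restrict (Icc (0 : ℝ) 1)) :=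
    (intervalIntegrable_iff_integrableOn_Icc_of_le zero_le_one).1 hint
  have hmem := (hmono.monotoneOn (uIcc (0 : ℝ) 1)).intervalIntegral_deriv_mem_uIcc
  have h01 : e 0 ≤ e 1 := hmono zero_le_one
  rw [uIcc_of_le (by linarith), mem_Icc] at hmem
  calc (∫⁻ t in Icc (0 : ℝ) 1, (cu_slope γ t) ^ 2)
      ≤ ∫⁻ t in Icc (0 : ℝ) 1, ENNReal.ofReal (deriv e t) := lintegral_mono_ae hae
    _ = ENNReal.ofReal (∫ t in Icc (0 : ℝ) 1, deriv e t) :=
        (ofReal_integral_eq_lintegral_ofReal hint'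
          (Eventually.of_forall fun t => hmono.deriv_nonneg)).symm
    _ ≤ ENNReal.ofReal (e 1 - e 0) := by
        apply ENNReal.ofReal_le_ofReal
        rw [integral_Icc_eq_integral_Ioc, ← intervalIntegral.integral_of_le zero_le_one]
        exact hmem.2
    _ ≤ ENNReal.ofReal (e 1) := by
        apply ENNReal.ofReal_le_ofReal
        have : 0 ≤ e 0 := ENNReal.toReal_nonneg
        linarith
    _ = cu_eloc γ 1 := ENNReal.ofReal_toReal (hfin 1)
    _ ≤ cu_energy' γ := cu_eloc_le γ 1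

end

end Claimed.Agent.R210.CU.Eloc
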