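/-
Row 210 (S0432), layer CU, file Energy (CU3, assembly).
-/
import Claimed.Agent.R210.CU.Eloc
import Claimed.Agent.R210.CU.AC
import Claimed.Agent.R210.CU.SpeedMeas

set_option autoImplicit false

open Claims.C0366 Claims.C0366.WeakHessian
open Set Filter MeasureTheory TopologicalSpace
open scoped ENNReal NNReal Topology
open Claimed.Agent.R210.Defs Claimed.Agent.R210.CU.Defs Claimed.Agent.R210.CU.IfcBasic

open Claimed.Agent.R210.CU.Riesz Claimed.Agent.R210.CU.Slope Claimed.Agent.R210.CU.Eloc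
open Claimed.Agent.R210.CU.AC Claimed.Agent.R210.CU.SpeedMeas

namespace Claimed.Agent.R210.CU.Energy

noncomputable section

variable {X : Type*} [MetricSpace X]

/-- `cu_slope γ` is admissible as soon as `evalReal γ` is absolutely continuous. -/
theorem cu_slope_admissible {γ : Curve X} (hac : AbsolutelyContinuousOnInterval (evalReal γ) 0 1) :
    ∀ s t : Time, (s : ℝ) ≤ (t : ℝ) → edist (γ s) (γ t) ≤ ∫⁻ r in Icc (s : ℝ) (t : ℝ), cu_slope γ r := by
  intro s t hst
  have := cu_edist_le_lintegral_slope hac s.2.1 hst t.2.2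
  rwa [cu_evalReal_coe, cu_evalReal_coe] at this

theorem cu_isAC2_of_energy' {γ : Curve X} (hE : cu_energy' γ < ∞) : IsAC2 γ :=
  ⟨cu_slope γ, cu_measurable_slope γ, (cu_lintegral_slope_sq_le γ).trans_lt hE,
    cu_slope_admissible (cu_ac_of_energy' hE)⟩

theorem cu_energy'_lt_top {γ : Curve X} (h : IsAC2 γ) : cu_energy' γ < ∞ := by
  obtain ⟨a, ha, hfin, hadm⟩ := h
  exact (cu_energy'_le_of_admissible ha hadm).trans_lt hfin

theorem cu_ac_of_isAC2 {γ : Curve X} (h : IsAC2 γ) : AbsolutelyContinuousOnInterval (evalReal γ) 0 1 :=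
  cu_ac_of_energy' (cu_energy'_lt_top h)

theorem cu_isAC2_iff {γ : Curve X} : IsAC2 γ ↔ cu_energy' γ < ∞ :=
  ⟨cu_energy'_lt_top, cu_isAC2_of_energy'⟩

theorem cu_speed_eq_slope {γ : Curve X} (h : IsAC2 γ) :
    ∀ᵐ t ∂(volume.restrict (Icc (0 : ℝ) 1)), metricSpeed γ t = cu_slope γ t := by
  have hE := cu_energy'_lt_top h
  have h1 := cu_speed_le_of_admissible (cu_measurable_slope γ)
    (cu_lintegral_lt_top_of_sq ((cu_lintegral_slope_sq_le γ).trans_lt hE))
    (cu_slope_admissible (cu_ac_of_energy' hE))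
  filter_upwards [h1] with t ht
  exact le_antisymm ht (cu_slope_le_speed γ t)

theorem cu_energy_eq_slope {γ : Curve X} (h : IsAC2 γ) :
    cu_energy γ = ∫⁻ t in Icc (0 : ℝ) 1, (cu_slope γ t) ^ 2 := by
  unfold cu_energy
  apply lintegral_congr_ae
  filter_upwards [cu_speed_eq_slope h] with t ht
  rw [ht]

theorem cu_energy'_eq {γ : Curve X} (h : IsAC2 γ) : cu_energy' γ = cu_energy γ := by
  rw [cu_energy_eq_slope h]
  exact le_antisymm
    (cu_energy'_le_of_admissible (cu_measurable_slope γ)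
      (cu_slope_admissible (cu_ac_of_energy' (cu_energy'_lt_top h))))
    (cu_lintegral_slope_sq_le γ)

theorem cu_energy_lt_top {γ : Curve X} (h : IsAC2 γ) : cu_energy γ < ∞ := by
  rw [← cu_energy'_eq h]; exact cu_energy'_lt_top h

theorem cu_energy_le_energy' (γ : Curve X) : cu_energy γ ≤ cu_energy' γ := by
  by_cases hE : cu_energy' γ < ∞
  · exact (cu_energy'_eq (cu_isAC2_of_energy' hE)).ge
  · rw [not_lt, top_le_iff] at hE
    rw [hE]; exact le_top

theorem cu_edist_le_lintegral_speed_of_mem {γ : Curve X} (h : IsAC2 γ) {s t : ℝ} (hs : 0 ≤ s) (hst : s ≤ t)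
    (ht : t ≤ 1) : edist (evalReal γ s) (evalReal γ t) ≤ ∫⁻ r in Icc s t, metricSpeed γ r :=
  (cu_edist_le_lintegral_slope (cu_ac_of_energy' (cu_energy'_lt_top h)) hs hst ht).trans
    (lintegral_mono (fun r => cu_slope_le_speed γ r))

/-- for arbitrary real times. -/
theorem cu_edist_le_lintegral_speed {γ : Curve X} (h : IsAC2 γ) {s t : ℝ} (hst : s ≤ t) :
    edist (evalReal γ s) (evalReal γ t) ≤ ∫⁻ r in Icc s t, metricSpeed γ r := by
  rcases lt_or_ge t 0 with ht0 | ht0
  · rw [cu_evalReal_of_nonpos γ (hst.trans ht0.le), cu_evalReal_of_nonpos γ ht0.le, edist_self]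
    exact zero_le
  rcases lt_or_ge 1 s with hs1 | hs1
  · rw [cu_evalReal_of_one_le γ hs1.le, cu_evalReal_of_one_le γ (hs1.le.trans hst), edist_self]
    exact zero_le
  have hs0 : evalReal γ s = evalReal γ (max 0 s) := by
    rcases le_total s 0 with h0 | h0
    · rw [max_eq_left h0, cu_evalReal_of_nonpos γ h0, cu_evalReal_zero]
    · rw [max_eq_right h0]
  have ht1 : evalReal γ t = evalReal γ (min 1 t) := by
    rcases le_total 1 t with h1 | h1
    · rw [min_eq_left h1, cu_evalReal_of_one_le γ h1, cu_evalReal_one]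
    · rw [min_eq_right h1]
  rw [hs0, ht1]
  have hle : max 0 s ≤ min 1 t :=
    max_le (le_min zero_le_one ht0) (le_min hs1 hst)
  refine (cu_edist_le_lintegral_speed_of_mem h (le_max_left _ _) hle (min_le_left _ _)).trans ?_
  exact lintegral_mono_set (Icc_subset_Icc (le_max_right _ _) (min_le_right _ _))

theorem cu_measurable_energy' : Measurable (cu_energy' : Curve X → ℝ≥0∞) :=
  cu_lsc_energy'.measurable

theorem cu_measurableSet_isAC2 : MeasurableSet {γ : Curve X | IsAC2 γ} := by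
  have : {γ : Curve X | IsAC2 γ} = cu_energy' ⁻¹' (Iio ∞) := by
    ext γ; exact cu_isAC2_iff
  rw [this]
  exact cu_measurable_energy' measurableSet_Iio

end

end Claimed.Agent.R210.CU.Energy
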