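/-
Row 210 (S0432), layer CU, file Restr (CU4): restriction/rescaling `cu_restr s t` and time reversal `cu_rev = cu_restr 1 0`.
`cu_restr s t γ = γ.comp (cu_aff s t)`,  `cu_aff s t r = clampTime (s + r (t - s))`;   so `cu_restr s t γ r = evalReal γ (s + r (t-s))` by `rfl`.
* `cu_continuous_restr`: `ContinuousMap.continuous_precomp` (name may differ: `ContinuousMap.continuous_comp_left`).
* `cu_lintegral_affine`: NO measurability of f.  The map `r ↦ s + r c` is a measurable equivalence (`Homeomorph`: `(Homeomorph.mulRight₀ c hc).trans (Homeomorph.addLeft s)`), `lintegral_map_equiv`,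
  image of Lebesgue measure: `Real.map_volume_mul_right`, `map_add_left_eq_self`;  restriction: `Measure.restrict_map`/`MeasurableEquiv.restrict_map`; preimage of `uIcc` = `Icc r₁ r₂`.
* `cu_speed_restr`: near `r ∈ (0,1)`: `evalReal (cu_restr s t γ) r' = evalReal γ (s + r' (t-s))` (`cu_evalReal_restr`; `Ioo_mem_nhds`).  If `s = t` both sides are 0.
  If `s ≠ t`: `r' ↦ s + r'(t-s)` maps `𝓝[≠] r` ONTO `𝓝[≠] (s + r (t-s))` (`Filter.map` of a homeomorphism; `Homeomorph.map_nhds_eq`, `map_punctured_nhds`...), `Filter.limsup` and `map`: `Filter.limsup_comp`/`limsup_map`... ,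
  `d/|r'-r| = |t-s| · d/|τ'-τ|`,  `ENNReal.ofReal_mul`, `ENNReal.limsup_const_mul_of_ne_top`.
* `cu_isAC2_restr`: `a' r = ofReal (t-s) * a (s + r (t-s))`; `cu_lintegral_affine` (if `s = t`: constant curve, `a' = 0`).     `cu_isAC2_rev`: `a' r = a (1 - r)`.
* energies: `cu_speed_restr` holds on `Ioo 0 1`, which is a.e. all of `Icc 0 1` (`Ioo_ae_eq_Icc`, `restrict_congr_set`), then `cu_lintegral_affine`.
-/
import Claimed.Agent.R210.CU.IfcBasic

set_option autoImplicit false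

open Claims.C0366 Claims.C0366.WeakHessian
open Set Filter MeasureTheory TopologicalSpace
open scoped ENNReal NNReal Topology
open Claimed.Agent.R210.Defs Claimed.Agent.R210.CU.Defs Claimed.Agent.R210.CU.IfcBasic

namespace Claimed.Agent.R210.CU.Restr

noncomputable section

variable {X : Type*} [MetricSpace X]

theorem cu_restr_apply (s t : ℝ) (γ : Curve X) (r : Time) :
    cu_restr s t γ r = evalReal γ (s + (r : ℝ) * (t - s)) := rfl

theorem cu_evalReal_restr (s t : ℝ) (γ : Curve X) {r : ℝ} (hr : r ∈ Icc (0 : ℝ) 1) :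
    evalReal (cu_restr s t γ) r = evalReal γ (s + r * (t - s)) := by
  rw [cu_evalReal_of_mem _ hr, cu_restr_apply]

theorem cu_restr_timeZero (s t : ℝ) (γ : Curve X) : cu_restr s t γ timeZero = evalReal γ s := by
  rw [cu_restr_apply]; simp [timeZero]

theorem cu_restr_timeOne (s t : ℝ) (γ : Curve X) : cu_restr s t γ timeOne = evalReal γ t := by
  rw [cu_restr_apply]; simp [timeOne]

theorem cu_restr_zero_one (γ : Curve X) : cu_restr 0 1 γ = γ := by
  ext r
  rw [cu_restr_apply]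
  simp [cu_evalReal_coe]

theorem cu_continuous_restr (s t : ℝ) : Continuous (cu_restr s t : Curve X → Curve X) :=
  ContinuousMap.continuous_precomp (cu_aff s t)

theorem cu_measurable_restr (s t : ℝ) : Measurable (cu_restr s t : Curve X → Curve X) :=
  (cu_continuous_restr s t).measurable

theorem cu_rev_apply (γ : Curve X) (r : Time) : cu_rev γ r = evalReal γ (1 - (r : ℝ)) := by
  rw [cu_rev, cu_restr_apply]
  congr 1
  ring

theorem cu_rev_timeZero (γ : Curve X) : cu_rev γ timeZero = γ timeOne := by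
  rw [cu_rev, cu_restr_timeZero, cu_evalReal_one]

theorem cu_rev_timeOne (γ : Curve X) : cu_rev γ timeOne = γ timeZero := by
  rw [cu_rev, cu_restr_timeOne, cu_evalReal_zero]

theorem cu_rev_rev (γ : Curve X) : cu_rev (cu_rev γ) = γ := by
  ext r
  have hr : (1 : ℝ) - (r : ℝ) ∈ Icc (0 : ℝ) 1 := ⟨by linarith [r.2.2], by linarith [r.2.1]⟩
  rw [cu_rev_apply, cu_evalReal_of_mem _ hr, cu_rev_apply]
  have : (1 : ℝ) - ((⟨1 - (r : ℝ), hr⟩ : Time) : ℝ) = (r : ℝ) := by
    show (1 : ℝ) - (1 - (r : ℝ)) = r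
    ring
  rw [this, cu_evalReal_coe]

theorem cu_continuous_rev : Continuous (cu_rev : Curve X → Curve X) := cu_continuous_restr 1 0

theorem cu_measurable_rev : Measurable (cu_rev : Curve X → Curve X) := cu_continuous_rev.measurable

theorem cu_mem_uIcc_affine (s : ℝ) {c : ℝ} (hc : c ≠ 0) {r₁ r₂ : ℝ} (h : r₁ ≤ r₂) (r : ℝ) :
    s + r * c ∈ uIcc (s + r₁ * c) (s + r₂ * c) ↔ r ∈ Icc r₁ r₂ := by
  rcases lt_or_gt_of_ne hc with hc' | hc'
  · have h1 : s + r₂ * c ≤ s + r₁ * c := by nlinarith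
    rw [uIcc_of_ge h1, mem_Icc, mem_Icc]
    constructor
    · rintro ⟨h2, h3⟩
      constructor
      · by_contra hh
        push Not at hh
        nlinarith
      · by_contra hh
        push Not at hh
        nlinarith
    · rintro ⟨h2, h3⟩
      constructor <;> nlinarith
  · have h1 : s + r₁ * c ≤ s + r₂ * c := by nlinarith
    rw [uIcc_of_le h1, mem_Icc, mem_Icc]
    constructor
    · rintro ⟨h2, h3⟩
      constructor
      · by_contra hh
        push Not at hh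
        nlinarith
      · by_contra hh
        push Not at hh
        nlinarith
    · rintro ⟨h2, h3⟩
      constructor <;> nlinarith

/-- affine change of variables, no measurability needed. -/
theorem cu_lintegral_affine (f : ℝ → ℝ≥0∞) (s : ℝ) {c : ℝ} (hc : c ≠ 0) {r₁ r₂ : ℝ} (h : r₁ ≤ r₂) :
    (∫⁻ r in Icc r₁ r₂, ENNReal.ofReal |c| * f (s + r * c)) = ∫⁻ τ in uIcc (s + r₁ * c) (s + r₂ * c), f τ := by
  set e : ℝ ≃ᵐ ℝ := ((Homeomorph.mulRight₀ c hc).trans (Homeomorph.addLeft s)).toMeasurableEquiv with he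
  have hee : ∀ r, e r = s + r * c := fun r => rfl
  have hvol : (volume : Measure ℝ) = ENNReal.ofReal |c| • Measure.map e volume := by
    have h1 : Measure.map e (volume : Measure ℝ)
        = Measure.map (fun x => s + x) (Measure.map (fun x => x * c) volume) := by
      rw [Measure.map_map (measurable_const_add s) (measurable_mul_const c)]
      rfl
    rw [h1, Real.map_volume_mul_right hc, Measure.map_smul, map_add_left_eq_self, smul_smul,
      ← ENNReal.ofReal_mul (abs_nonneg _), ← abs_mul, mul_inv_cancel₀ hc, abs_one,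
      ENNReal.ofReal_one, one_smul]
  rw [lintegral_const_mul' _ _ ENNReal.ofReal_ne_top, ← lintegral_indicator measurableSet_Icc,
    ← lintegral_indicator measurableSet_uIcc]
  conv_rhs => rw [hvol]
  rw [lintegral_smul_measure, lintegral_map_equiv, smul_eq_mul]
  congr 1
  refine lintegral_congr fun r => ?_
  rw [hee]
  by_cases hr : r ∈ Icc r₁ r₂
  · rw [indicator_of_mem hr, indicator_of_mem ((cu_mem_uIcc_affine s hc h r).2 hr)]
  · rw [indicator_of_notMem hr, indicator_of_notMem (fun hh => hr ((cu_mem_uIcc_affine s hc h r).1 hh))]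

theorem cu_speed_restr (s t : ℝ) (γ : Curve X) {r : ℝ} (hr : r ∈ Ioo (0 : ℝ) 1) :
    metricSpeed (cu_restr s t γ) r = ENNReal.ofReal |t - s| * metricSpeed γ (s + r * (t - s)) := by
  have hnear : ∀ᶠ r' in 𝓝[≠] r, r' ∈ Icc (0 : ℝ) 1 ∧ r' ≠ r := by
    have h0 : ∀ᶠ r' in 𝓝[≠] r, r' ∈ Ioo (0 : ℝ) 1 :=
      mem_nhdsWithin_of_mem_nhds (Ioo_mem_nhds hr.1 hr.2)
    have h1 : ∀ᶠ r' in 𝓝[≠] r, r' ∈ Icc (0 : ℝ) 1 := h0.mono (fun _ h => Ioo_subset_Icc_self h)
    exact h1.and self_mem_nhdsWithin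
  have hr' : r ∈ Icc (0 : ℝ) 1 := Ioo_subset_Icc_self hr
  unfold metricSpeed
  by_cases hc : t - s = 0
  · rw [hc, abs_zero, ENNReal.ofReal_zero, zero_mul]
    have : (fun r' : ℝ => ENNReal.ofReal
        (dist (evalReal (cu_restr s t γ) r') (evalReal (cu_restr s t γ) r) / |r' - r|))
        =ᶠ[𝓝[≠] r] fun _ => (0 : ℝ≥0∞) := by
      filter_upwards [hnear] with r' h
      rw [cu_evalReal_restr s t γ h.1, cu_evalReal_restr s t γ hr', hc]
      simp
    rw [limsup_congr this, limsup_const]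
  · let φ : ℝ ≃ₜ ℝ := (Homeomorph.mulRight₀ (t - s) hc).trans (Homeomorph.addLeft s)
    have hφ : ∀ x, φ x = s + x * (t - s) := fun x => rfl
    have hmap : map φ (𝓝[≠] r) = 𝓝[≠] (s + r * (t - s)) := by
      rw [φ.map_punctured_nhds_eq r, hφ]
    have hev : (fun r' : ℝ => ENNReal.ofReal
        (dist (evalReal (cu_restr s t γ) r') (evalReal (cu_restr s t γ) r) / |r' - r|))
        =ᶠ[𝓝[≠] r] fun r' => ENNReal.ofReal |t - s| *
          ((fun τ : ℝ => ENNReal.ofReal (dist (evalReal γ τ) (evalReal γ (s + r * (t - s)))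
            / |τ - (s + r * (t - s))|)) ∘ φ) r' := by
      filter_upwards [hnear] with r' h
      rw [cu_evalReal_restr s t γ h.1, cu_evalReal_restr s t γ hr', Function.comp_apply, hφ,
        ← ENNReal.ofReal_mul (abs_nonneg _)]
      congr 1
      have h1 : s + r' * (t - s) - (s + r * (t - s)) = (r' - r) * (t - s) := by ring
      rw [h1, abs_mul]
      have h2 : |t - s| ≠ 0 := abs_ne_zero.2 hc
      have h3 : |r' - r| ≠ 0 := abs_ne_zero.2 (sub_ne_zero.2 h.2)
      field_simp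
    rw [limsup_congr hev, ENNReal.limsup_const_mul_of_ne_top ENNReal.ofReal_ne_top, limsup_comp, hmap]

theorem cu_speed_rev (γ : Curve X) {r : ℝ} (hr : r ∈ Ioo (0 : ℝ) 1) :
    metricSpeed (cu_rev γ) r = metricSpeed γ (1 - r) := by
  rw [cu_rev, cu_speed_restr 1 0 γ hr]
  have : (1 : ℝ) + r * (0 - 1) = 1 - r := by ring
  rw [this]
  simp

theorem cu_edist_le_uIcc {γ : Curve X} {a : ℝ → ℝ≥0∞}
    (h : ∀ s t : Time, (s : ℝ) ≤ (t : ℝ) → edist (γ s) (γ t) ≤ ∫⁻ r in Set.Icc (s : ℝ) (t : ℝ), a r)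
    {τ₁ τ₂ : ℝ} (h₁ : τ₁ ∈ Icc (0 : ℝ) 1) (h₂ : τ₂ ∈ Icc (0 : ℝ) 1) :
    edist (evalReal γ τ₁) (evalReal γ τ₂) ≤ ∫⁻ r in uIcc τ₁ τ₂, a r := by
  rw [cu_evalReal_of_mem _ h₁, cu_evalReal_of_mem _ h₂]
  rcases le_total τ₁ τ₂ with hle | hle
  · rw [uIcc_of_le hle]
    exact h ⟨τ₁, h₁⟩ ⟨τ₂, h₂⟩ hle
  · rw [uIcc_of_ge hle, edist_comm]
    exact h ⟨τ₂, h₂⟩ ⟨τ₁, h₁⟩ hle

theorem cu_affine_mem_Icc {s t r : ℝ} (hs : s ∈ Icc (0 : ℝ) 1) (ht : t ∈ Icc (0 : ℝ) 1)
    (hr : r ∈ Icc (0 : ℝ) 1) : s + r * (t - s) ∈ Icc (0 : ℝ) 1 := by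
  have e : s + r * (t - s) = (1 - r) * s + r * t := by ring
  rw [e]
  constructor
  · have := mul_nonneg (sub_nonneg.2 hr.2) hs.1
    have := mul_nonneg hr.1 ht.1
    linarith
  · have h1 := mul_le_mul_of_nonneg_left hs.2 (sub_nonneg.2 hr.2)
    have h2 := mul_le_mul_of_nonneg_left ht.2 hr.1
    linarith

theorem cu_isAC2_restr_of_ne {γ : Curve X} (h : IsAC2 γ) {s t : ℝ} (hs : s ∈ Icc (0 : ℝ) 1)
    (ht : t ∈ Icc (0 : ℝ) 1) (hne : s ≠ t) : IsAC2 (cu_restr s t γ) := by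
  obtain ⟨a, ham, hfin, hle⟩ := h
  have hc : t - s ≠ 0 := sub_ne_zero.2 (Ne.symm hne)
  refine ⟨fun r => ENNReal.ofReal |t - s| * a (s + r * (t - s)), ?_, ?_, ?_⟩
  · exact (ham.comp (by fun_prop)).const_mul _
  · have e : (∫⁻ r in Icc (0 : ℝ) 1, (ENNReal.ofReal |t - s| * a (s + r * (t - s))) ^ 2)
        = ENNReal.ofReal |t - s| *
          ∫⁻ r in Icc (0 : ℝ) 1, ENNReal.ofReal |t - s| * (fun τ => (a τ) ^ 2) (s + r * (t - s)) := by
      rw [← lintegral_const_mul']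
      · refine lintegral_congr fun r => ?_
        simp only
        ring
      · exact ENNReal.ofReal_ne_top
    rw [e, cu_lintegral_affine (fun τ => (a τ) ^ 2) s hc zero_le_one]
    refine ENNReal.mul_lt_top ENNReal.ofReal_lt_top (lt_of_le_of_lt ?_ hfin)
    refine lintegral_mono_set ?_
    refine uIcc_subset_Icc ?_ ?_
    · simpa using hs
    · simpa using ht
  · intro r₁ r₂ hr
    rw [cu_restr_apply, cu_restr_apply, cu_lintegral_affine a s hc hr]
    exact cu_edist_le_uIcc hle (cu_affine_mem_Icc hs ht r₁.2) (cu_affine_mem_Icc hs ht r₂.2)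

theorem cu_isAC2_restr {γ : Curve X} (h : IsAC2 γ) {s t : ℝ} (hs : 0 ≤ s) (hst : s ≤ t) (ht : t ≤ 1) :
    IsAC2 (cu_restr s t γ) := by
  rcases eq_or_ne s t with rfl | hne
  · refine ⟨fun _ => 0, measurable_const, by simp, ?_⟩
    intro r₁ r₂ _
    rw [cu_restr_apply, cu_restr_apply]
    simp
  · exact cu_isAC2_restr_of_ne h ⟨hs, hst.trans ht⟩ ⟨hs.trans hst, ht⟩ hne

theorem cu_isAC2_rev {γ : Curve X} (h : IsAC2 γ) : IsAC2 (cu_rev γ) :=
  cu_isAC2_restr_of_ne h ⟨zero_le_one, le_rfl⟩ ⟨le_rfl, zero_le_one⟩ one_ne_zero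

theorem cu_isGeodesic_restr {γ : Curve X} (h : IsGeodesic γ) {s t : ℝ} (hs : s ∈ Icc (0 : ℝ) 1)
    (ht : t ∈ Icc (0 : ℝ) 1) : IsGeodesic (cu_restr s t γ) := by
  have key : ∀ r : Time, s + (r : ℝ) * (t - s) ∈ Icc (0 : ℝ) 1 := by
    intro r
    have h0 := r.2.1
    have h1 := r.2.2
    constructor
    · nlinarith [hs.1, ht.1, mul_nonneg h0 ht.1, mul_nonneg (sub_nonneg.2 h1) hs.1]
    · nlinarith [hs.2, ht.2, mul_nonneg h0 (sub_nonneg.2 ht.2), mul_nonneg (sub_nonneg.2 h1) (sub_nonneg.2 hs.2)]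
  intro a b
  rw [cu_restr_timeZero, cu_restr_timeOne, cu_restr_apply, cu_restr_apply, cu_evalReal_of_mem _ (key a),
    cu_evalReal_of_mem _ (key b), cu_evalReal_of_mem _ hs, cu_evalReal_of_mem _ ht, h ⟨s, hs⟩ ⟨t, ht⟩,
    h ⟨_, key a⟩ ⟨_, key b⟩]
  show |(s + (a : ℝ) * (t - s)) - (s + (b : ℝ) * (t - s))| * _ = _ * (|s - t| * _)
  have e : (s + (a : ℝ) * (t - s)) - (s + (b : ℝ) * (t - s)) = ((a : ℝ) - b) * (t - s) := by ring
  rw [e, abs_mul, abs_sub_comm t s]
  ring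

theorem cu_isGeodesic_rev {γ : Curve X} (h : IsGeodesic γ) : IsGeodesic (cu_rev γ) :=
  cu_isGeodesic_restr h ⟨zero_le_one, le_rfl⟩ ⟨le_rfl, zero_le_one⟩

/-- change of variables along a restricted curve, no measurability needed. -/
theorem cu_lintegral_restr (γ : Curve X) {s t : ℝ} (hst : s < t) (g : ℝ → ℝ≥0∞) :
    (∫⁻ r in Icc (0 : ℝ) 1, g (s + r * (t - s)) * metricSpeed (cu_restr s t γ) r)
      = ∫⁻ τ in Icc s t, g τ * metricSpeed γ τ := by
  have hc : t - s ≠ 0 := (sub_pos.2 hst).ne'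
  have h := cu_lintegral_affine (fun τ => g τ * metricSpeed γ τ) s hc (zero_le_one' ℝ)
  have hu : uIcc (s + 0 * (t - s)) (s + 1 * (t - s)) = Icc s t := by
    have h1 : s + 0 * (t - s) = s := by ring
    have h2 : s + 1 * (t - s) = t := by ring
    rw [h1, h2, uIcc_of_le hst.le]
  rw [hu] at h
  rw [← h]
  refine (setLIntegral_congr Ioo_ae_eq_Icc).symm.trans (Eq.trans ?_ (setLIntegral_congr Ioo_ae_eq_Icc))
  refine setLIntegral_congr_fun measurableSet_Ioo fun r hr => ?_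
  rw [cu_speed_restr s t γ hr]
  ring

theorem cu_lintegral_rev (γ : Curve X) (g : ℝ → ℝ≥0∞) :
    (∫⁻ r in Icc (0 : ℝ) 1, g (1 - r) * metricSpeed (cu_rev γ) r)
      = ∫⁻ τ in Icc (0 : ℝ) 1, g τ * metricSpeed γ τ := by
  have hc : (-1 : ℝ) ≠ 0 := by norm_num
  have h := cu_lintegral_affine (fun τ => g τ * metricSpeed γ τ) 1 hc (zero_le_one' ℝ)
  have hu : uIcc ((1 : ℝ) + 0 * (-1)) (1 + 1 * (-1)) = Icc 0 1 := by
    have h1 : (1 : ℝ) + 0 * (-1) = 1 := by ring
    have h2 : (1 : ℝ) + 1 * (-1) = 0 := by ring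
    rw [h1, h2, uIcc_of_ge zero_le_one]
  rw [hu] at h
  rw [← h]
  refine (setLIntegral_congr Ioo_ae_eq_Icc).symm.trans (Eq.trans ?_ (setLIntegral_congr Ioo_ae_eq_Icc))
  refine setLIntegral_congr_fun measurableSet_Ioo fun r hr => ?_
  rw [cu_speed_rev γ hr]
  have h3 : (1 : ℝ) + r * (-1) = 1 - r := by ring
  rw [h3]
  simp

theorem cu_energy_restr (γ : Curve X) {s t : ℝ} (hst : s < t) :
    cu_energy (cu_restr s t γ) = ENNReal.ofReal (t - s) * ∫⁻ r in Icc s t, (metricSpeed γ r) ^ 2 := by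
  have h := cu_lintegral_restr γ hst (fun τ => metricSpeed γ τ)
  have h' : (∫⁻ r in Icc s t, (metricSpeed γ r) ^ 2) = ∫⁻ τ in Icc s t, metricSpeed γ τ * metricSpeed γ τ := by
    refine lintegral_congr fun r => ?_
    rw [sq]
  rw [h', ← h, ← lintegral_const_mul' _ _ ENNReal.ofReal_ne_top, cu_energy]
  refine (setLIntegral_congr Ioo_ae_eq_Icc).symm.trans (Eq.trans ?_ (setLIntegral_congr Ioo_ae_eq_Icc))
  refine setLIntegral_congr_fun measurableSet_Ioo fun r hr => ?_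
  rw [cu_speed_restr s t γ hr, abs_of_pos (sub_pos.2 hst)]
  ring

theorem cu_energy_rev (γ : Curve X) : cu_energy (cu_rev γ) = cu_energy γ := by
  have h := cu_lintegral_rev γ (fun τ => metricSpeed γ τ)
  have h' : cu_energy γ = ∫⁻ τ in Icc (0 : ℝ) 1, metricSpeed γ τ * metricSpeed γ τ := by
    rw [cu_energy]
    refine lintegral_congr fun r => ?_
    rw [sq]
  rw [h', ← h, cu_energy]
  refine (setLIntegral_congr Ioo_ae_eq_Icc).symm.trans (Eq.trans ?_ (setLIntegral_congr Ioo_ae_eq_Icc))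
  refine setLIntegral_congr_fun measurableSet_Ioo fun r hr => ?_
  rw [cu_speed_rev γ hr, sq]

end

end Claimed.Agent.R210.CU.Restr
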