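/-
Row 210 (S0432), layer CU, file Plan (CU6): operations on test plans.
Frozen: `IsTestPlan m π = IsProbabilityMeasure π ∧ (∃ C, cu_Compr m π C) ∧ (∀ᵐ γ ∂π, IsAC2 γ) ∧ ∫⁻ γ, cu_energy γ ∂π < ∞` (the last two up to `rfl`).
* `cu_testPlan_of_le`: `Measure.map_mono`-type (`Measure.map_mono hle (cu_measurable_eval t)`, `Measure.map_smul`), constant `c * C`;  `ae`: `Measure.absolutelyContinuous_of_le_smul`;  `lintegral_mono'`, `lintegral_smul_measure`.
* `cu_testPlan_cond`: `cu_testPlan_of_le` with `c = ((π Γ)⁻¹).toNNReal` (`π Γ ≠ 0`, so the inverse is finite), `Measure.restrict_le_self`; probability: `Measure.restrict_apply_univ`, `ENNReal.inv_mul_cancel`.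
* `cu_testPlan_restr`: `Measure.isProbabilityMeasure_map`;  `Measure.map_map` + `cu_restr_apply` (`evalReal γ τ = γ (clampTime τ)` by `rfl`);  `ae_map_iff` with `cu_measurableSet_isAC2`, `cu_isAC2_restr`;
  `lintegral_map_le`, `cu_energy_restr`:  `(t-s) ∫_{[s,t]} speed² ≤ cu_energy γ`.
* `BoundedTracks` of a push-forward: the set `{γ | ∀ t, dist (γ t) o ≤ R}` is closed, `ae_map_iff`.
* `cu_testPlan_of_geodesics`: `cu_isAC2_of_geodesic`, `cu_energy_geodesic`, `∫⁻ edist² ≤ ofReal D²`.      `cu_testPlan_of_geoPlan`: `D = 2 R`.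
-/
import Claimed.Agent.R210.CU.Energy
import Claimed.Agent.R210.CU.Restr
import Claimed.Agent.R210.CU.Geo

set_option autoImplicit false

open Claims.C0366 Claims.C0366.WeakHessian
open Set Filter MeasureTheory TopologicalSpace
open scoped ENNReal NNReal Topology
open Claimed.Agent.R210.Defs Claimed.Agent.R210.CU.Defs Claimed.Agent.R210.CU.IfcBasic

open Claimed.Agent.R210.CU.Energy Claimed.Agent.R210.CU.Restr Claimed.Agent.R210.CU.Geo

namespace Claimed.Agent.R210.CU.Plan

noncomputable section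

variable {X : Type*} [MetricSpace X] [MeasurableSpace X] [BorelSpace X] {m : Measure X}

theorem cu_compr_of_testPlan {π : Measure (Curve X)} (h : IsTestPlan m π) : ∃ C : ℝ≥0, cu_Compr m π C :=
  h.2.1

theorem cu_testPlan_iff {π : Measure (Curve X)} :
    IsTestPlan m π ↔ IsProbabilityMeasure π ∧ (∃ C : ℝ≥0, cu_Compr m π C) ∧ (∀ᵐ γ ∂π, IsAC2 γ) ∧
      (∫⁻ γ, cu_energy γ ∂π) < ∞ := Iff.rfl

theorem cu_compr_of_le {π π' : Measure (Curve X)} {C c : ℝ≥0} (h : cu_Compr m π C)
    (hle : π' ≤ (c : ℝ≥0∞) • π) : cu_Compr m π' (c * C) := by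
  intro t
  have h1 : Measure.map (fun γ : Curve X => γ t) π' ≤ (c : ℝ≥0∞) • Measure.map (fun γ : Curve X => γ t) π := by
    rw [← Measure.map_smul]
    exact Measure.map_mono hle (cu_measurable_eval t)
  refine h1.trans ?_
  rw [ENNReal.coe_mul, ← smul_smul]
  refine Measure.le_iff'.2 fun s => ?_
  simp only [Measure.smul_apply, smul_eq_mul]
  have h2 : Measure.map (fun γ : Curve X => γ t) π s ≤ (C : ℝ≥0∞) * m s := by
    simpa only [Measure.smul_apply, smul_eq_mul] using h t s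
  gcongr

theorem cu_testPlan_of_le {π π' : Measure (Curve X)} (h : IsTestPlan m π) (hp : IsProbabilityMeasure π')
    {c : ℝ≥0} (hle : π' ≤ (c : ℝ≥0∞) • π) : IsTestPlan m π' := by
  obtain ⟨_, ⟨C, hC⟩, hac, hen⟩ := h
  refine ⟨hp, ⟨c * C, cu_compr_of_le hC hle⟩, (Measure.absolutelyContinuous_of_le_smul hle).ae_le hac, ?_⟩
  refine (lintegral_mono' hle le_rfl).trans_lt ?_
  rw [lintegral_smul_measure]
  exact ENNReal.mul_lt_top ENNReal.coe_lt_top hen

theorem cu_boundedTracks_of_ac {π π' : Measure (Curve X)} (h : BoundedTracks π) (hac : π' ≪ π) :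
    BoundedTracks π' := by
  obtain ⟨o, R, hR, hπ⟩ := h
  exact ⟨o, R, hR, hac.ae_le hπ⟩

theorem cu_testPlan_cond {π : Measure (Curve X)} (h : IsTestPlan m π) {Γ : Set (Curve X)}
    (hpos : π Γ ≠ 0) : IsTestPlan m ((π Γ)⁻¹ • π.restrict Γ) := by
  have : IsProbabilityMeasure π := h.1
  have hinv : (π Γ)⁻¹ ≠ ∞ := ENNReal.inv_ne_top.2 hpos
  have hp : IsProbabilityMeasure ((π Γ)⁻¹ • π.restrict Γ) := by
    refine ⟨?_⟩
    rw [Measure.smul_apply, Measure.restrict_apply_univ, smul_eq_mul]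
    exact ENNReal.inv_mul_cancel hpos (measure_ne_top π Γ)
  refine cu_testPlan_of_le h hp (c := ((π Γ)⁻¹).toNNReal) ?_
  rw [ENNReal.coe_toNNReal hinv]
  refine Measure.le_iff'.2 fun s => ?_
  simp only [Measure.smul_apply, smul_eq_mul]
  have h2 : π.restrict Γ s ≤ π s := Measure.restrict_le_self s
  gcongr

theorem cu_boundedTracks_cond {π : Measure (Curve X)} (h : BoundedTracks π) (Γ : Set (Curve X)) :
    BoundedTracks ((π Γ)⁻¹ • π.restrict Γ) :=
  cu_boundedTracks_of_ac h (Measure.restrict_le_self.absolutelyContinuous.smul_left _)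

theorem cu_map_eval_restr (π : Measure (Curve X)) (s t : ℝ) (r : Time) :
    (π.map (cu_restr s t)).map (fun γ : Curve X => γ r)
      = π.map (fun γ : Curve X => γ (clampTime (s + (r : ℝ) * (t - s)))) := by
  rw [Measure.map_map (cu_measurable_eval r) (cu_measurable_restr s t)]
  rfl

theorem cu_compr_restr {π : Measure (Curve X)} {C : ℝ≥0} (h : cu_Compr m π C) (s t : ℝ) :
    cu_Compr m (π.map (cu_restr s t)) C := by
  intro r
  rw [cu_map_eval_restr]
  exact h _

theorem cu_testPlan_restr {π : Measure (Curve X)} (h : IsTestPlan m π) {s t : ℝ} (hs : 0 ≤ s)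
    (hst : s < t) (ht : t ≤ 1) : IsTestPlan m (π.map (cu_restr s t)) := by
  obtain ⟨hp, ⟨C, hC⟩, hac, hE⟩ := cu_testPlan_iff.1 h
  refine cu_testPlan_iff.2 ⟨Measure.isProbabilityMeasure_map (cu_measurable_restr s t).aemeasurable,
    ⟨C, cu_compr_restr hC s t⟩, ?_, ?_⟩
  · exact (ae_map_iff (cu_measurable_restr s t).aemeasurable cu_measurableSet_isAC2).2
      (hac.mono fun γ hγ => cu_isAC2_restr hγ hs hst.le ht)
  · refine lt_of_le_of_lt (lintegral_map_le _ _) (lt_of_le_of_lt ?_ hE)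
    refine lintegral_mono fun γ => ?_
    rw [cu_energy_restr γ hst]
    have h1 : ENNReal.ofReal (t - s) ≤ 1 := by
      rw [← ENNReal.ofReal_one]
      exact ENNReal.ofReal_le_ofReal (by linarith)
    have h2 : (∫⁻ r in Icc s t, (metricSpeed γ r) ^ 2) ≤ cu_energy γ :=
      lintegral_mono_set (Icc_subset_Icc hs ht)
    calc ENNReal.ofReal (t - s) * ∫⁻ r in Icc s t, (metricSpeed γ r) ^ 2
        ≤ 1 * cu_energy γ := mul_le_mul' h1 h2
      _ = cu_energy γ := one_mul _

theorem cu_testPlan_rev {π : Measure (Curve X)} (h : IsTestPlan m π) : IsTestPlan m (π.map cu_rev) := by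
  obtain ⟨hp, ⟨C, hC⟩, hac, hE⟩ := cu_testPlan_iff.1 h
  refine cu_testPlan_iff.2 ⟨Measure.isProbabilityMeasure_map cu_measurable_rev.aemeasurable,
    ⟨C, cu_compr_restr hC 1 0⟩, ?_, ?_⟩
  · exact (ae_map_iff cu_measurable_rev.aemeasurable cu_measurableSet_isAC2).2
      (hac.mono fun γ hγ => cu_isAC2_rev hγ)
  · refine lt_of_le_of_lt (lintegral_map_le _ _) (lt_of_le_of_lt ?_ hE)
    exact lintegral_mono fun γ => (cu_energy_rev γ).le

theorem cu_boundedTracks_restr {π : Measure (Curve X)} (h : BoundedTracks π) (s t : ℝ) :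
    BoundedTracks (π.map (cu_restr s t)) := by
  obtain ⟨o, R, hR, hπ⟩ := h
  refine ⟨o, R, hR, ?_⟩
  have hms : MeasurableSet {γ : Curve X | ∀ r : Time, dist (γ r) o ≤ R} := by
    rw [Set.ofPred_forall]
    exact (isClosed_iInter fun r =>
      isClosed_le ((cu_continuous_eval_time r).dist continuous_const) continuous_const).measurableSet
  refine (ae_map_iff (cu_measurable_restr s t).aemeasurable hms).2 (hπ.mono fun γ hγ r => ?_)
  exact hγ _

theorem cu_boundedTracks_rev {π : Measure (Curve X)} (h : BoundedTracks π) : BoundedTracks (π.map cu_rev) :=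
  cu_boundedTracks_restr h 1 0

theorem cu_testPlan_of_geodesics {π : Measure (Curve X)} (hp : IsProbabilityMeasure π) {C : ℝ≥0}
    (hC : cu_Compr m π C) (hgeo : ∀ᵐ γ ∂π, IsGeodesic γ) {D : ℝ}
    (hD : ∀ᵐ γ ∂π, dist (γ timeZero) (γ timeOne) ≤ D) : IsTestPlan m π := by
  have := hp
  refine cu_testPlan_iff.2 ⟨hp, ⟨C, hC⟩, hgeo.mono (fun γ h => cu_isAC2_of_geodesic h), ?_⟩
  have h1 : (∫⁻ γ, cu_energy γ ∂π) ≤ ∫⁻ _γ : Curve X, ENNReal.ofReal D ^ 2 ∂π := by
    refine lintegral_mono_ae ?_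
    filter_upwards [hgeo, hD] with γ hg hd
    rw [cu_energy_geodesic hg, edist_dist]
    exact pow_le_pow_left₀ zero_le (ENNReal.ofReal_le_ofReal hd) 2
  refine h1.trans_lt ?_
  rw [lintegral_const, measure_univ, mul_one]
  exact ENNReal.pow_lt_top ENNReal.ofReal_lt_top

theorem cu_testPlan_of_geoPlan {μ ν : Measure X} {π : Measure (Curve X)} {C : ℝ≥0}
    (h : GeoPlan m μ ν π C) : IsTestPlan m π := by
  obtain ⟨o, R, _, hπ⟩ := h.tracks
  refine cu_testPlan_of_geodesics h.prob (C := C) h.comp h.geo (D := 2 * R) ?_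
  filter_upwards [hπ] with γ hγ
  have h0 := hγ timeZero
  have h1 := hγ timeOne
  have h2 := dist_triangle_right (γ timeZero) (γ timeOne) o
  linarith

end

end Claimed.Agent.R210.CU.Plan
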