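/-
Row 210 (S0432), layer CU (curves toolbox on `Curve X = C(Time, X)`), architect helper118.        INTERFACE FILE (generated from the leaf files; do not edit by hand).
Consumers:   `import Claimed.Agent.R210.CU.Ifc`   and   `open Claimed.Agent.R210.CU.Defs Claimed.Agent.R210.CU.IfcBasic Claimed.Agent.R210.CU.Ifc`.
Definitions (CU/Defs.lean): `cu_energy`, `cu_term`, `cu_energy'` (Riesz energy, sup over monotone sequences of REAL times), `cu_dyen n` (dyadic energy), `cu_aff`, `cu_restr s t`, `cu_rev`, `cu_Compr m π C`.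
CU1 (Polish, evaluation maps, `clampTime`, `evalReal`) is in CU/IfcBasic.lean (sorry-free).
-/
import Claimed.Agent.R210.CU.IfcBasic
import Claimed.Agent.R210.CU.Energy
import Claimed.Agent.R210.CU.Dyadic
import Claimed.Agent.R210.CU.Restr
import Claimed.Agent.R210.CU.Compact
import Claimed.Agent.R210.CU.Plan
import Claimed.Agent.R210.CU.Along

set_option autoImplicit false
set_option linter.unusedSectionVars false

open Claims.C0366 Claims.C0366.WeakHessian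
open Set Filter MeasureTheory TopologicalSpace
open scoped ENNReal NNReal Topology
open Claimed.Agent.R210.Defs Claimed.Agent.R210.CU.Defs Claimed.Agent.R210.CU.IfcBasic

namespace Claimed.Agent.R210.CU.Ifc

noncomputable section

variable {X : Type*} [MetricSpace X]

/-! ### CU2: measurability of the metric speed -/

/-- the limsup may be taken along rational increments. -/
theorem cu_metricSpeed_eq (γ : Curve X) (t : ℝ) :
    metricSpeed γ t = ⨅ n : ℕ, ⨆ q : ℚ, ⨆ (_ : q ≠ 0 ∧ |(q : ℝ)| < 1 / ((n : ℝ) + 1)),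
      ENNReal.ofReal (dist (evalReal γ (t + q)) (evalReal γ t) / |(q : ℝ)|) :=
  SpeedMeas.cu_metricSpeed_eq γ t

theorem cu_measurable_metricSpeed [SeparableSpace X] :
    Measurable (fun p : Curve X × ℝ => metricSpeed p.1 p.2) :=
  SpeedMeas.cu_measurable_metricSpeed

theorem cu_measurable_metricSpeed_curve (γ : Curve X) : Measurable (metricSpeed γ) :=
  SpeedMeas.cu_measurable_metricSpeed_curve γ

/-- `Measurable.lintegral_prod_right'` applied to `cu_measurable_metricSpeed`. -/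
theorem cu_measurable_energy [SeparableSpace X] : Measurable (cu_energy : Curve X → ℝ≥0∞) :=
  SpeedMeas.cu_measurable_energy

/-! ### CU3a: the Riesz energy `cu_energy'` (supremum over partitions) -/

theorem cu_term_self (γ : Curve X) (a : ℝ) : cu_term γ a a = 0 :=
  Riesz.cu_term_self γ a

theorem cu_sum_le_energy' (γ : Curve X) (n : ℕ) {u : ℕ → ℝ} (hu : Monotone u) :
    ∑ i ∈ Finset.range n, cu_term γ (u i) (u (i + 1)) ≤ cu_energy' γ :=
  Riesz.cu_sum_le_energy' γ n hu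

theorem cu_term_le_energy' (γ : Curve X) {a b : ℝ} (hab : a ≤ b) : cu_term γ a b ≤ cu_energy' γ :=
  Riesz.cu_term_le_energy' γ hab

theorem cu_edist_sq_le (γ : Curve X) {a b : ℝ} (hab : a ≤ b) :
    edist (evalReal γ a) (evalReal γ b) ^ 2 ≤ ENNReal.ofReal (b - a) * cu_energy' γ :=
  Riesz.cu_edist_sq_le γ hab

theorem cu_energy'_le_of_admissible {γ : Curve X} {α : ℝ → ℝ≥0∞} (hα : Measurable α)
    (hadm : ∀ s t : Time, (s : ℝ) ≤ (t : ℝ) → edist (γ s) (γ t) ≤ ∫⁻ r in Icc (s : ℝ) (t : ℝ), α r) :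
    cu_energy' γ ≤ ∫⁻ r in Icc (0 : ℝ) 1, (α r) ^ 2 :=
  Riesz.cu_energy'_le_of_admissible hα hadm

theorem cu_lsc_energy' : LowerSemicontinuous (cu_energy' : Curve X → ℝ≥0∞) :=
  Riesz.cu_lsc_energy'

/-! ### CU3b: admissible functions -/

theorem cu_lintegral_lt_top_of_sq {a : ℝ → ℝ≥0∞}
    (hfin : (∫⁻ t in Icc (0 : ℝ) 1, (a t) ^ 2) < ∞) : (∫⁻ t in Icc (0 : ℝ) 1, a t) < ∞ :=
  AC.cu_lintegral_lt_top_of_sq hfin

theorem cu_ac_of_admissible {γ : Curve X} {a : ℝ → ℝ≥0∞} (ha : Measurable a)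
    (hfin : (∫⁻ t in Icc (0 : ℝ) 1, a t) < ∞)
    (hadm : ∀ s t : Time, (s : ℝ) ≤ (t : ℝ) → edist (γ s) (γ t) ≤ ∫⁻ r in Icc (s : ℝ) (t : ℝ), a r) :
    AbsolutelyContinuousOnInterval (evalReal γ) 0 1 :=
  AC.cu_ac_of_admissible ha hfin hadm

theorem cu_speed_le_of_admissible {γ : Curve X} {a : ℝ → ℝ≥0∞} (ha : Measurable a)
    (hfin : (∫⁻ t in Icc (0 : ℝ) 1, a t) < ∞)
    (hadm : ∀ s t : Time, (s : ℝ) ≤ (t : ℝ) → edist (γ s) (γ t) ≤ ∫⁻ r in Icc (s : ℝ) (t : ℝ), a r) :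
    ∀ᵐ t ∂(volume.restrict (Icc (0 : ℝ) 1)), metricSpeed γ t ≤ a t :=
  AC.cu_speed_le_of_admissible ha hfin hadm

/-! ### CU3c: `IsAC2`, energy = Riesz energy -/

theorem cu_isAC2_of_energy' {γ : Curve X} (hE : cu_energy' γ < ∞) : IsAC2 γ :=
  Energy.cu_isAC2_of_energy' hE

theorem cu_energy'_lt_top {γ : Curve X} (h : IsAC2 γ) : cu_energy' γ < ∞ :=
  Energy.cu_energy'_lt_top h

theorem cu_ac_of_isAC2 {γ : Curve X} (h : IsAC2 γ) : AbsolutelyContinuousOnInterval (evalReal γ) 0 1 :=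
  Energy.cu_ac_of_isAC2 h

theorem cu_isAC2_iff {γ : Curve X} : IsAC2 γ ↔ cu_energy' γ < ∞ :=
  Energy.cu_isAC2_iff

theorem cu_energy'_eq {γ : Curve X} (h : IsAC2 γ) : cu_energy' γ = cu_energy γ :=
  Energy.cu_energy'_eq h

theorem cu_energy_lt_top {γ : Curve X} (h : IsAC2 γ) : cu_energy γ < ∞ :=
  Energy.cu_energy_lt_top h

theorem cu_energy_le_energy' (γ : Curve X) : cu_energy γ ≤ cu_energy' γ :=
  Energy.cu_energy_le_energy' γ

/-- for arbitrary real times. -/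
theorem cu_edist_le_lintegral_speed {γ : Curve X} (h : IsAC2 γ) {s t : ℝ} (hst : s ≤ t) :
    edist (evalReal γ s) (evalReal γ t) ≤ ∫⁻ r in Icc s t, metricSpeed γ r :=
  Energy.cu_edist_le_lintegral_speed h hst

theorem cu_measurable_energy' : Measurable (cu_energy' : Curve X → ℝ≥0∞) :=
  Energy.cu_measurable_energy'

theorem cu_measurableSet_isAC2 : MeasurableSet {γ : Curve X | IsAC2 γ} :=
  Energy.cu_measurableSet_isAC2

/-! ### CU3d: the Riesz energy is the supremum of the dyadic energies (`li_en n γ = cu_dyen n γ` by `rfl`) -/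

theorem cu_energy'_le_dyadic (γ : Curve X) : cu_energy' γ ≤ ⨆ n, cu_dyen n γ :=
  Dyadic.cu_energy'_le_dyadic γ

theorem cu_dyen_le_energy' (γ : Curve X) (n : ℕ) : cu_dyen n γ ≤ cu_energy' γ :=
  Dyadic.cu_dyen_le_energy' γ n

theorem cu_energy'_eq_dyadic (γ : Curve X) : cu_energy' γ = ⨆ n, cu_dyen n γ :=
  Dyadic.cu_energy'_eq_dyadic γ

/-! ### CU4: restriction and time reversal -/

theorem cu_restr_apply (s t : ℝ) (γ : Curve X) (r : Time) :
    cu_restr s t γ r = evalReal γ (s + (r : ℝ) * (t - s)) :=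
  Restr.cu_restr_apply s t γ r

theorem cu_evalReal_restr (s t : ℝ) (γ : Curve X) {r : ℝ} (hr : r ∈ Icc (0 : ℝ) 1) :
    evalReal (cu_restr s t γ) r = evalReal γ (s + r * (t - s)) :=
  Restr.cu_evalReal_restr s t γ hr

theorem cu_restr_timeZero (s t : ℝ) (γ : Curve X) : cu_restr s t γ timeZero = evalReal γ s :=
  Restr.cu_restr_timeZero s t γ

theorem cu_restr_timeOne (s t : ℝ) (γ : Curve X) : cu_restr s t γ timeOne = evalReal γ t :=
  Restr.cu_restr_timeOne s t γ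

theorem cu_restr_zero_one (γ : Curve X) : cu_restr 0 1 γ = γ :=
  Restr.cu_restr_zero_one γ

theorem cu_continuous_restr (s t : ℝ) : Continuous (cu_restr s t : Curve X → Curve X) :=
  Restr.cu_continuous_restr s t

theorem cu_measurable_restr (s t : ℝ) : Measurable (cu_restr s t : Curve X → Curve X) :=
  Restr.cu_measurable_restr s t

theorem cu_rev_apply (γ : Curve X) (r : Time) : cu_rev γ r = evalReal γ (1 - (r : ℝ)) :=
  Restr.cu_rev_apply γ r

theorem cu_rev_timeZero (γ : Curve X) : cu_rev γ timeZero = γ timeOne :=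
  Restr.cu_rev_timeZero γ

theorem cu_rev_timeOne (γ : Curve X) : cu_rev γ timeOne = γ timeZero :=
  Restr.cu_rev_timeOne γ

theorem cu_rev_rev (γ : Curve X) : cu_rev (cu_rev γ) = γ :=
  Restr.cu_rev_rev γ

theorem cu_continuous_rev : Continuous (cu_rev : Curve X → Curve X) :=
  Restr.cu_continuous_rev

theorem cu_measurable_rev : Measurable (cu_rev : Curve X → Curve X) :=
  Restr.cu_measurable_rev

theorem cu_mem_uIcc_affine (s : ℝ) {c : ℝ} (hc : c ≠ 0) {r₁ r₂ : ℝ} (h : r₁ ≤ r₂) (r : ℝ) :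
    s + r * c ∈ uIcc (s + r₁ * c) (s + r₂ * c) ↔ r ∈ Icc r₁ r₂ :=
  Restr.cu_mem_uIcc_affine s hc h r

/-- affine change of variables, no measurability needed. -/
theorem cu_lintegral_affine (f : ℝ → ℝ≥0∞) (s : ℝ) {c : ℝ} (hc : c ≠ 0) {r₁ r₂ : ℝ} (h : r₁ ≤ r₂) :
    (∫⁻ r in Icc r₁ r₂, ENNReal.ofReal |c| * f (s + r * c)) = ∫⁻ τ in uIcc (s + r₁ * c) (s + r₂ * c), f τ :=
  Restr.cu_lintegral_affine f s hc h

theorem cu_speed_restr (s t : ℝ) (γ : Curve X) {r : ℝ} (hr : r ∈ Ioo (0 : ℝ) 1) :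
    metricSpeed (cu_restr s t γ) r = ENNReal.ofReal |t - s| * metricSpeed γ (s + r * (t - s)) :=
  Restr.cu_speed_restr s t γ hr

theorem cu_speed_rev (γ : Curve X) {r : ℝ} (hr : r ∈ Ioo (0 : ℝ) 1) :
    metricSpeed (cu_rev γ) r = metricSpeed γ (1 - r) :=
  Restr.cu_speed_rev γ hr

theorem cu_edist_le_uIcc {γ : Curve X} {a : ℝ → ℝ≥0∞}
    (h : ∀ s t : Time, (s : ℝ) ≤ (t : ℝ) → edist (γ s) (γ t) ≤ ∫⁻ r in Set.Icc (s : ℝ) (t : ℝ), a r)
    {τ₁ τ₂ : ℝ} (h₁ : τ₁ ∈ Icc (0 : ℝ) 1) (h₂ : τ₂ ∈ Icc (0 : ℝ) 1) :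
    edist (evalReal γ τ₁) (evalReal γ τ₂) ≤ ∫⁻ r in uIcc τ₁ τ₂, a r :=
  Restr.cu_edist_le_uIcc h h₁ h₂

theorem cu_affine_mem_Icc {s t r : ℝ} (hs : s ∈ Icc (0 : ℝ) 1) (ht : t ∈ Icc (0 : ℝ) 1)
    (hr : r ∈ Icc (0 : ℝ) 1) : s + r * (t - s) ∈ Icc (0 : ℝ) 1 :=
  Restr.cu_affine_mem_Icc hs ht hr

theorem cu_isAC2_restr_of_ne {γ : Curve X} (h : IsAC2 γ) {s t : ℝ} (hs : s ∈ Icc (0 : ℝ) 1)
    (ht : t ∈ Icc (0 : ℝ) 1) (hne : s ≠ t) : IsAC2 (cu_restr s t γ) :=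
  Restr.cu_isAC2_restr_of_ne h hs ht hne

theorem cu_isAC2_restr {γ : Curve X} (h : IsAC2 γ) {s t : ℝ} (hs : 0 ≤ s) (hst : s ≤ t) (ht : t ≤ 1) :
    IsAC2 (cu_restr s t γ) :=
  Restr.cu_isAC2_restr h hs hst ht

theorem cu_isAC2_rev {γ : Curve X} (h : IsAC2 γ) : IsAC2 (cu_rev γ) :=
  Restr.cu_isAC2_rev h

theorem cu_isGeodesic_restr {γ : Curve X} (h : IsGeodesic γ) {s t : ℝ} (hs : s ∈ Icc (0 : ℝ) 1)
    (ht : t ∈ Icc (0 : ℝ) 1) : IsGeodesic (cu_restr s t γ) :=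
  Restr.cu_isGeodesic_restr h hs ht

theorem cu_isGeodesic_rev {γ : Curve X} (h : IsGeodesic γ) : IsGeodesic (cu_rev γ) :=
  Restr.cu_isGeodesic_rev h

/-- change of variables along a restricted curve, no measurability needed. -/
theorem cu_lintegral_restr (γ : Curve X) {s t : ℝ} (hst : s < t) (g : ℝ → ℝ≥0∞) :
    (∫⁻ r in Icc (0 : ℝ) 1, g (s + r * (t - s)) * metricSpeed (cu_restr s t γ) r)
      = ∫⁻ τ in Icc s t, g τ * metricSpeed γ τ :=
  Restr.cu_lintegral_restr γ hst g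

theorem cu_lintegral_rev (γ : Curve X) (g : ℝ → ℝ≥0∞) :
    (∫⁻ r in Icc (0 : ℝ) 1, g (1 - r) * metricSpeed (cu_rev γ) r)
      = ∫⁻ τ in Icc (0 : ℝ) 1, g τ * metricSpeed γ τ :=
  Restr.cu_lintegral_rev γ g

theorem cu_energy_restr (γ : Curve X) {s t : ℝ} (hst : s < t) :
    cu_energy (cu_restr s t γ) = ENNReal.ofReal (t - s) * ∫⁻ r in Icc s t, (metricSpeed γ r) ^ 2 :=
  Restr.cu_energy_restr γ hst

theorem cu_energy_rev (γ : Curve X) : cu_energy (cu_rev γ) = cu_energy γ :=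
  Restr.cu_energy_rev γ

/-! ### CU5a: geodesics -/

theorem cu_isClosed_geodesic : IsClosed {γ : Curve X | IsGeodesic γ} :=
  Geo.cu_isClosed_geodesic

theorem cu_measurableSet_geodesic : MeasurableSet {γ : Curve X | IsGeodesic γ} :=
  Geo.cu_measurableSet_geodesic

theorem cu_geodesic_dist_evalReal {γ : Curve X} (h : IsGeodesic γ) {s t : ℝ} (hs : s ∈ Icc (0 : ℝ) 1)
    (ht : t ∈ Icc (0 : ℝ) 1) :
    dist (evalReal γ s) (evalReal γ t) = |s - t| * dist (γ timeZero) (γ timeOne) :=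
  Geo.cu_geodesic_dist_evalReal h hs ht

theorem cu_geodesic_dist_zero {γ : Curve X} (h : IsGeodesic γ) (t : Time) :
    dist (γ timeZero) (γ t) = (t : ℝ) * dist (γ timeZero) (γ timeOne) :=
  Geo.cu_geodesic_dist_zero h t

theorem cu_geodesic_dist_one {γ : Curve X} (h : IsGeodesic γ) (t : Time) :
    dist (γ t) (γ timeOne) = (1 - (t : ℝ)) * dist (γ timeZero) (γ timeOne) :=
  Geo.cu_geodesic_dist_one h t

theorem cu_speed_geodesic {γ : Curve X} (h : IsGeodesic γ) {t : ℝ} (ht : t ∈ Ioo (0 : ℝ) 1) :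
    metricSpeed γ t = ENNReal.ofReal (dist (γ timeZero) (γ timeOne)) :=
  Geo.cu_speed_geodesic h ht

theorem cu_isAC2_of_geodesic {γ : Curve X} (h : IsGeodesic γ) : IsAC2 γ :=
  Geo.cu_isAC2_of_geodesic h

theorem cu_energy_geodesic {γ : Curve X} (h : IsGeodesic γ) :
    cu_energy γ = edist (γ timeZero) (γ timeOne) ^ 2 :=
  Geo.cu_energy_geodesic h

/-! ### CU5b: compactness (proper spaces) -/

theorem cu_isCompact_of_equicontinuous [ProperSpace X] {A : Set (Curve X)} (hcl : IsClosed A)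
    (hb : ∃ (o : X) (R : ℝ), ∀ γ ∈ A, ∀ t : Time, dist (γ t) o ≤ R)
    (heq : Equicontinuous (fun (γ : A) (t : Time) => (γ : Curve X) t)) : IsCompact A :=
  Compact.cu_isCompact_of_equicontinuous hcl hb heq

/-- Arzela-Ascoli with a common modulus of continuity, starting points in a compact set. -/
theorem cu_isCompact_of_modulus [ProperSpace X] {S : Set (Curve X)} (hcl : IsClosed S) {A : Set X}
    (hA : IsCompact A) (h0 : ∀ γ ∈ S, γ timeZero ∈ A) (M : ℝ)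
    (hM : ∀ γ ∈ S, ∀ t : Time, dist (γ t) (γ timeZero) ≤ M) (b : ℝ → ℝ)
    (hb : Tendsto b (𝓝 0) (𝓝 0))
    (hmod : ∀ γ ∈ S, ∀ s t : Time, dist (γ s) (γ t) ≤ b (dist s t)) : IsCompact S :=
  Compact.cu_isCompact_of_modulus hcl hA h0 M hM b hb hmod

theorem cu_isCompact_geodesics [ProperSpace X] {A B : Set X} (hA : IsCompact A) (hB : IsCompact B) :
    IsCompact {γ : Curve X | IsGeodesic γ ∧ γ timeZero ∈ A ∧ γ timeOne ∈ B} :=
  Compact.cu_isCompact_geodesics hA hB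

/-- Hoelder-1/2 bound from the Riesz energy (ordered times). -/
theorem cu_dist_le_sqrt_of_le {γ : Curve X} {c : ℝ≥0} (hc : cu_energy' γ ≤ c) {s t : Time}
    (hst : (s : ℝ) ≤ (t : ℝ)) : dist (γ s) (γ t) ≤ Real.sqrt (((t : ℝ) - (s : ℝ)) * c) :=
  Compact.cu_dist_le_sqrt_of_le hc hst

/-- Hoelder-1/2 bound from the Riesz energy. -/
theorem cu_dist_le_sqrt {γ : Curve X} {c : ℝ≥0} (hc : cu_energy' γ ≤ c) (s t : Time) :
    dist (γ s) (γ t) ≤ Real.sqrt (dist s t * c) :=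
  Compact.cu_dist_le_sqrt hc s t

theorem cu_isCompact_energy [ProperSpace X] {A : Set X} (hA : IsCompact A) (c : ℝ≥0) :
    IsCompact {γ : Curve X | γ timeZero ∈ A ∧ cu_energy' γ ≤ c} :=
  Compact.cu_isCompact_energy hA c

variable [MeasurableSpace X] [BorelSpace X] {m : Measure X}

/-! ### CU6: operations on test plans -/

theorem cu_compr_of_testPlan {π : Measure (Curve X)} (h : IsTestPlan m π) : ∃ C : ℝ≥0, cu_Compr m π C :=
  Plan.cu_compr_of_testPlan h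

theorem cu_testPlan_iff {π : Measure (Curve X)} :
    IsTestPlan m π ↔ IsProbabilityMeasure π ∧ (∃ C : ℝ≥0, cu_Compr m π C) ∧ (∀ᵐ γ ∂π, IsAC2 γ) ∧
      (∫⁻ γ, cu_energy γ ∂π) < ∞ :=
  Plan.cu_testPlan_iff

theorem cu_compr_of_le {π π' : Measure (Curve X)} {C c : ℝ≥0} (h : cu_Compr m π C)
    (hle : π' ≤ (c : ℝ≥0∞) • π) : cu_Compr m π' (c * C) :=
  Plan.cu_compr_of_le h hle

theorem cu_testPlan_of_le {π π' : Measure (Curve X)} (h : IsTestPlan m π) (hp : IsProbabilityMeasure π')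
    {c : ℝ≥0} (hle : π' ≤ (c : ℝ≥0∞) • π) : IsTestPlan m π' :=
  Plan.cu_testPlan_of_le h hp hle

theorem cu_boundedTracks_of_ac {π π' : Measure (Curve X)} (h : BoundedTracks π) (hac : π' ≪ π) :
    BoundedTracks π' :=
  Plan.cu_boundedTracks_of_ac h hac

theorem cu_testPlan_cond {π : Measure (Curve X)} (h : IsTestPlan m π) {Γ : Set (Curve X)}
    (hpos : π Γ ≠ 0) : IsTestPlan m ((π Γ)⁻¹ • π.restrict Γ) :=
  Plan.cu_testPlan_cond h hpos

theorem cu_boundedTracks_cond {π : Measure (Curve X)} (h : BoundedTracks π) (Γ : Set (Curve X)) :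
    BoundedTracks ((π Γ)⁻¹ • π.restrict Γ) :=
  Plan.cu_boundedTracks_cond h Γ

theorem cu_map_eval_restr (π : Measure (Curve X)) (s t : ℝ) (r : Time) :
    (π.map (cu_restr s t)).map (fun γ : Curve X => γ r)
      = π.map (fun γ : Curve X => γ (clampTime (s + (r : ℝ) * (t - s)))) :=
  Plan.cu_map_eval_restr π s t r

theorem cu_compr_restr {π : Measure (Curve X)} {C : ℝ≥0} (h : cu_Compr m π C) (s t : ℝ) :
    cu_Compr m (π.map (cu_restr s t)) C :=
  Plan.cu_compr_restr h s t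

theorem cu_testPlan_restr {π : Measure (Curve X)} (h : IsTestPlan m π) {s t : ℝ} (hs : 0 ≤ s)
    (hst : s < t) (ht : t ≤ 1) : IsTestPlan m (π.map (cu_restr s t)) :=
  Plan.cu_testPlan_restr h hs hst ht

theorem cu_testPlan_rev {π : Measure (Curve X)} (h : IsTestPlan m π) : IsTestPlan m (π.map cu_rev) :=
  Plan.cu_testPlan_rev h

theorem cu_boundedTracks_restr {π : Measure (Curve X)} (h : BoundedTracks π) (s t : ℝ) :
    BoundedTracks (π.map (cu_restr s t)) :=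
  Plan.cu_boundedTracks_restr h s t

theorem cu_boundedTracks_rev {π : Measure (Curve X)} (h : BoundedTracks π) : BoundedTracks (π.map cu_rev) :=
  Plan.cu_boundedTracks_rev h

theorem cu_testPlan_of_geodesics {π : Measure (Curve X)} (hp : IsProbabilityMeasure π) {C : ℝ≥0}
    (hC : cu_Compr m π C) (hgeo : ∀ᵐ γ ∂π, IsGeodesic γ) {D : ℝ}
    (hD : ∀ᵐ γ ∂π, dist (γ timeZero) (γ timeOne) ≤ D) : IsTestPlan m π :=
  Plan.cu_testPlan_of_geodesics hp hC hgeo hD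

theorem cu_testPlan_of_geoPlan {μ ν : Measure X} {π : Measure (Curve X)} {C : ℝ≥0}
    (h : GeoPlan m μ ν π C) : IsTestPlan m π :=
  Plan.cu_testPlan_of_geoPlan h

/-! ### CU7: integrals along plans of bounded compression -/

theorem cu_map_prod_evalReal_le [SeparableSpace X] {π : Measure (Curve X)} [SFinite π] {C : ℝ≥0}
    (hC : cu_Compr m π C) :
    (π.prod (volume.restrict (Icc (0 : ℝ) 1))).map (fun p : Curve X × ℝ => evalReal p.1 p.2)
      ≤ (C : ℝ≥0∞) • m :=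
  Along.cu_map_prod_evalReal_le hC

theorem cu_aemeasurable_along [SeparableSpace X] {π : Measure (Curve X)} [SFinite π] {C : ℝ≥0}
    (hC : cu_Compr m π C) {β : Type*} [MeasurableSpace β] {D : X → β} (hD : AEMeasurable D m) :
    AEMeasurable (fun p : Curve X × ℝ => D (evalReal p.1 p.2))
      (π.prod (volume.restrict (Icc (0 : ℝ) 1))) :=
  Along.cu_aemeasurable_along hC hD

theorem cu_ae_along [SeparableSpace X] {π : Measure (Curve X)} [SFinite π] {C : ℝ≥0}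
    (hC : cu_Compr m π C) {P : X → Prop} (hP : ∀ᵐ x ∂m, P x) :
    ∀ᵐ p ∂(π.prod (volume.restrict (Icc (0 : ℝ) 1))), P (evalReal p.1 p.2) :=
  Along.cu_ae_along hC hP

theorem cu_ae_ae_along [SeparableSpace X] {π : Measure (Curve X)} [SFinite π] {C : ℝ≥0}
    (hC : cu_Compr m π C) {P : X → Prop} (hP : ∀ᵐ x ∂m, P x) :
    ∀ᵐ γ ∂π, ∀ᵐ t ∂(volume.restrict (Icc (0 : ℝ) 1)), P (evalReal γ t) :=
  Along.cu_ae_ae_along hC hP

theorem cu_ae_eval {π : Measure (Curve X)} {C : ℝ≥0} (hC : cu_Compr m π C) {P : X → Prop}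
    (hP : ∀ᵐ x ∂m, P x) (t : Time) : ∀ᵐ γ ∂π, P (γ t) :=
  Along.cu_ae_eval hC hP t

theorem cu_lintegral_eval_le {π : Measure (Curve X)} {C : ℝ≥0} (hC : cu_Compr m π C) {g : X → ℝ≥0∞}
    (hg : AEMeasurable g m) (t : Time) : (∫⁻ γ, g (γ t) ∂π) ≤ C * ∫⁻ x, g x ∂m :=
  Along.cu_lintegral_eval_le hC hg t

theorem cu_lintegral_along_le [SeparableSpace X] {π : Measure (Curve X)} [SFinite π] {C : ℝ≥0}
    (hC : cu_Compr m π C) {g : X → ℝ≥0∞} (hg : AEMeasurable g m) :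
    (∫⁻ γ, ∫⁻ t in Icc (0 : ℝ) 1, g (evalReal γ t) ∂volume ∂π) ≤ C * ∫⁻ x, g x ∂m :=
  Along.cu_lintegral_along_le hC hg

theorem cu_lintegral_along_le_of_tracks [SeparableSpace X] {π : Measure (Curve X)} [SFinite π] {C : ℝ≥0}
    (hC : cu_Compr m π C) {S : Set X} (hS : MeasurableSet S) (hπS : ∀ᵐ γ ∂π, ∀ t : Time, γ t ∈ S)
    {g : X → ℝ≥0∞} (hg : AEMeasurable g (m.restrict S)) :
    (∫⁻ γ, ∫⁻ t in Icc (0 : ℝ) 1, g (evalReal γ t) ∂volume ∂π) ≤ C * ∫⁻ x in S, g x ∂m :=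
  Along.cu_lintegral_along_le_of_tracks hC hS hπS hg

theorem cu_cauchy_schwarz_along [SeparableSpace X] {π : Measure (Curve X)} [SFinite π] {C : ℝ≥0}
    (hC : cu_Compr m π C) {g : X → ℝ≥0∞} (hg : AEMeasurable g m) :
    (∫⁻ γ, ∫⁻ t in Icc (0 : ℝ) 1, g (evalReal γ t) * metricSpeed γ t ∂volume ∂π)
      ≤ (C * ∫⁻ x, (g x) ^ 2 ∂m) ^ (1 / 2 : ℝ) * (∫⁻ γ, cu_energy γ ∂π) ^ (1 / 2 : ℝ) :=
  Along.cu_cauchy_schwarz_along hC hg

theorem cu_cauchy_schwarz_along_of_tracks [SeparableSpace X] {π : Measure (Curve X)} [SFinite π]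
    {C : ℝ≥0} (hC : cu_Compr m π C) {S : Set X} (hS : MeasurableSet S)
    (hπS : ∀ᵐ γ ∂π, ∀ t : Time, γ t ∈ S) {g : X → ℝ≥0∞} (hg : AEMeasurable g (m.restrict S)) :
    (∫⁻ γ, ∫⁻ t in Icc (0 : ℝ) 1, g (evalReal γ t) * metricSpeed γ t ∂volume ∂π)
      ≤ (C * ∫⁻ x in S, (g x) ^ 2 ∂m) ^ (1 / 2 : ℝ) * (∫⁻ γ, cu_energy γ ∂π) ^ (1 / 2 : ℝ) :=
  Along.cu_cauchy_schwarz_along_of_tracks hC hS hπS hg

theorem cu_lintegral_along_congr [SeparableSpace X] {π : Measure (Curve X)} [SFinite π] {C : ℝ≥0}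
    (hC : cu_Compr m π C) {g g' : X → ℝ≥0∞} (h : g =ᵐ[m] g') :
    (∫⁻ γ, ∫⁻ t in Icc (0 : ℝ) 1, g (evalReal γ t) * metricSpeed γ t ∂volume ∂π)
      = ∫⁻ γ, ∫⁻ t in Icc (0 : ℝ) 1, g' (evalReal γ t) * metricSpeed γ t ∂volume ∂π :=
  Along.cu_lintegral_along_congr hC h

theorem cu_measurable_lintegral_along [SeparableSpace X] {g : X → ℝ≥0∞} (hg : Measurable g) :
    Measurable (fun γ : Curve X => ∫⁻ t in Icc (0 : ℝ) 1, g (evalReal γ t) * metricSpeed γ t) :=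
  Along.cu_measurable_lintegral_along hg

theorem cu_aemeasurable_of_locallyL2 {D : X → ℝ} (h : LocallyL2 m D) : AEMeasurable D m :=
  Along.cu_aemeasurable_of_locallyL2 h

end

end Claimed.Agent.R210.CU.Ifc
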